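import Vale.Agent.P218GA.Model
import Vale.Agent.P272.K.LIN.JetCalc

/-!
# P218 (helper40): exponential polar coordinates
-/

open Filter Topology Set Metric
open scoped Real ContDiff

set_option maxSynthPendingDepth 3

namespace Vale.Agent.P218MP

open Vale.Agent.P218GA Vale.Agent.P218VA Vale.Agent.P272.K.LIN

@[simp] lemma pol_zero (p : ℝ × ℝ) : pol p 0 = Real.exp (-p.1) * Real.cos p.2 := rfl
@[simp] lemma pol_one (p : ℝ × ℝ) : pol p 1 = Real.exp (-p.1) * Real.sin p.2 := rfl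

lemma norm_sq_E2 (y : E2) : ‖y‖ ^ 2 = y 0 ^ 2 + y 1 ^ 2 := by
  rw [EuclideanSpace.real_norm_sq_eq, Fin.sum_univ_two]

lemma norm_pol (p : ℝ × ℝ) : ‖pol p‖ = Real.exp (-p.1) := by
  refine (pow_left_inj₀ (norm_nonneg _) (Real.exp_pos _).le two_ne_zero).1 ?_
  rw [norm_sq_E2, pol_zero, pol_one, mul_pow, mul_pow, ← mul_add, Real.cos_sq_add_sin_sq, mul_one]

lemma pol_ne_zero (p : ℝ × ℝ) : pol p ≠ 0 := by
  rw [← norm_pos_iff, norm_pol]; exact Real.exp_pos _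

lemma pol_periodic (w θ : ℝ) : pol (w, θ + 2 * π) = pol (w, θ) := by
  simp [pol]

lemma pol_mem_ball {s : ℝ} {p : ℝ × ℝ} : pol p ∈ ball (0 : E2) (Real.exp (-s)) ↔ s < p.1 := by
  rw [mem_ball_zero_iff, norm_pol, Real.exp_lt_exp, neg_lt_neg_iff]

/-- the rotation by a right angle -/
noncomputable def Jr : E2 →L[ℝ] E2 :=
  (EuclideanSpace.proj (0 : Fin 2) : E2 →L[ℝ] ℝ).smulRight u2 -
    (EuclideanSpace.proj (1 : Fin 2) : E2 →L[ℝ] ℝ).smulRight u1

@[simp] lemma Jr_zero (y : E2) : Jr y 0 = -y 1 := by simp [Jr, u1, u2]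
@[simp] lemma Jr_one (y : E2) : Jr y 1 = y 0 := by simp [Jr, u1, u2]

lemma E2_ext {y z : E2} (h0 : y 0 = z 0) (h1 : y 1 = z 1) : y = z := by
  ext i; fin_cases i
  · exact h0
  · exact h1

lemma Jr_Jr (y : E2) : Jr (Jr y) = -y := E2_ext (by simp) (by simp)

lemma norm_Jr (y : E2) : ‖Jr y‖ = ‖y‖ := by
  refine (pow_left_inj₀ (norm_nonneg _) (norm_nonneg _) two_ne_zero).1 ?_
  rw [norm_sq_E2, norm_sq_E2, Jr_zero, Jr_one]; ring

lemma pol_eq (p : ℝ × ℝ) :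
    pol p = (Real.exp (-p.1) * Real.cos p.2) • u1 + (Real.exp (-p.1) * Real.sin p.2) • u2 :=
  E2_decomp (pol p)

lemma contDiff_pol {n : WithTop ℕ∞} : ContDiff ℝ n pol := by
  rw [show pol = _ from funext pol_eq]
  fun_prop

lemma continuous_pol : Continuous pol := (contDiff_pol (n := 0)).continuous

/-- the derivative of polar coordinates at a point over `y` -/
noncomputable def dpol (y : E2) : ℝ × ℝ →L[ℝ] E2 :=
  (ContinuousLinearMap.snd ℝ ℝ ℝ).smulRight (Jr y) - (ContinuousLinearMap.fst ℝ ℝ ℝ).smulRight y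

lemma dpol_apply (y : E2) (v : ℝ × ℝ) : dpol y v = v.2 • Jr y - v.1 • y := rfl

lemma hasFDerivAt_pol (p : ℝ × ℝ) : HasFDerivAt pol (dpol (pol p)) p := by
  have h1 : HasFDerivAt (fun q : ℝ × ℝ => Real.exp (-q.1))
      (Real.exp (-p.1) • -ContinuousLinearMap.fst ℝ ℝ ℝ) p := hasFDerivAt_fst.neg.exp
  have h2 := (hasFDerivAt_snd (𝕜 := ℝ) (p := p)).cos
  have h3 := (hasFDerivAt_snd (𝕜 := ℝ) (p := p)).sin
  have h4 := ((h1.mul h2).smul_const u1).add ((h1.mul h3).smul_const u2)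
  rw [show pol = _ from funext pol_eq]
  refine HasFDerivAt.congr_fderiv h4 ?_
  refine ContinuousLinearMap.ext fun v => E2_ext ?_ ?_ <;> simp [dpol_apply, u1, u2] <;> ring

lemma fderiv_pol (p : ℝ × ℝ) : fderiv ℝ pol p = dpol (pol p) := (hasFDerivAt_pol p).fderiv

lemma differentiable_pol : Differentiable ℝ pol := fun p => (hasFDerivAt_pol p).differentiableAt

lemma dw_pol (p : ℝ × ℝ) : dw pol p = -pol p := by
  simp [dw, pd, fderiv_pol, dpol_apply]

lemma dth_pol (p : ℝ × ℝ) : dth pol p = Jr (pol p) := by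
  simp [dth, pd, fderiv_pol, dpol_apply]

lemma jac_pol (p : ℝ × ℝ) : jac (1, 0) (0, 1) pol p = -Real.exp (-p.1) ^ 2 := by
  have h1 := dw_pol p
  have h2 := dth_pol p
  unfold dw at h1
  unfold dth at h2
  rw [jac, h1, h2, ← norm_pol, norm_sq_E2]
  simp
  ring

lemma jac_pol_ne (p : ℝ × ℝ) : jac (1, 0) (0, 1) pol p ≠ 0 := by
  rw [jac_pol]; exact neg_ne_zero.2 (pow_ne_zero _ (Real.exp_pos _).ne')

lemma hasDerivAt_pol_th (w θ : ℝ) : HasDerivAt (fun t => pol (w, t)) (Jr (pol (w, θ))) θ := by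
  have h := (hasFDerivAt_pol (w, θ)).comp_hasDerivAt θ
    ((hasDerivAt_const θ w).prodMk (hasDerivAt_id θ))
  exact HasDerivAt.congr_deriv h (by simp [dpol_apply])

lemma hasDerivAt_pol_w (w θ : ℝ) : HasDerivAt (fun t => pol (t, θ)) (-pol (w, θ)) w := by
  have h := (hasFDerivAt_pol (w, θ)).comp_hasDerivAt w
    ((hasDerivAt_id w).prodMk (hasDerivAt_const w θ))
  exact HasDerivAt.congr_deriv h (by simp [dpol_apply])

lemma norm_pol_sub_le (w θ θ' : ℝ) : ‖pol (w, θ) - pol (w, θ')‖ ≤ Real.exp (-w) * |θ - θ'| :=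
  convex_univ.norm_image_sub_le_of_norm_hasDerivWithin_le (f := fun t => pol (w, t))
    (fun t _ => (hasDerivAt_pol_th w t).hasDerivWithinAt)
    (fun t _ => by rw [norm_Jr, norm_pol]) (mem_univ _) (mem_univ _)

/-- the plane as the complex line -/
noncomputable def cz (y : E2) : ℂ := ⟨y 0, y 1⟩

lemma norm_cz (y : E2) : ‖cz y‖ = ‖y‖ := by
  refine (pow_left_inj₀ (norm_nonneg _) (norm_nonneg _) two_ne_zero).1 ?_
  rw [norm_sq_E2, Complex.sq_norm, Complex.normSq_apply, cz]; ring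

/-- the inverse of polar coordinates -/
noncomputable def lp (y : E2) : ℝ × ℝ := (-Real.log ‖y‖, Complex.arg (cz y))

lemma pol_lp {y : E2} (hy : y ≠ 0) : pol (lp y) = y := by
  have h1 : Real.exp (-(lp y).1) = ‖cz y‖ := by
    rw [lp, neg_neg, Real.exp_log (norm_pos_iff.2 hy), norm_cz]
  refine E2_ext ?_ ?_
  · rw [pol_zero, h1]; exact Complex.norm_mul_cos_arg _
  · rw [pol_one, h1]; exact Complex.norm_mul_sin_arg _

lemma lp_pol_fst (p : ℝ × ℝ) : (lp (pol p)).1 = p.1 := by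
  rw [lp, norm_pol, Real.log_exp, neg_neg]

lemma exists_int_of_pol_eq {p q : ℝ × ℝ} (h : pol p = pol q) :
    p.1 = q.1 ∧ ∃ k : ℤ, p.2 = q.2 + k * (2 * π) := by
  have h1 : p.1 = q.1 := by rw [← lp_pol_fst p, h, lp_pol_fst]
  refine ⟨h1, ?_⟩
  have h2 := congrArg (fun y : E2 => y 0) h
  have h3 := congrArg (fun y : E2 => y 1) h
  simp only [pol_zero, pol_one, h1, mul_eq_mul_left_iff, (Real.exp_pos _).ne', or_false] at h2 h3
  have h4 : (p.2 : Real.Angle) = q.2 := Real.Angle.cos_sin_inj h2 h3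
  obtain ⟨k, hk⟩ := Real.Angle.angle_eq_iff_two_pi_dvd_sub.1 h4
  exact ⟨k, by linarith⟩

/-- functions of period `2π` in the second variable -/
def Per {F : Type*} (f : ℝ × ℝ → F) : Prop := ∀ w θ, f (w, θ + 2 * π) = f (w, θ)

lemma Per.eq_of_pol_eq {F : Type*} {f : ℝ × ℝ → F} (hf : Per f) {p q : ℝ × ℝ}
    (h : pol p = pol q) : f p = f q := by
  obtain ⟨h1, k, hk⟩ := exists_int_of_pol_eq h
  have h2 : Function.Periodic (fun θ => f (q.1, θ)) (2 * π) := hf q.1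
  have h3 := h2.int_mul k q.2
  rw [show p = (q.1, q.2 + k * (2 * π)) from Prod.ext h1 hk]
  exact h3

lemma Per.lp_pol {F : Type*} {f : ℝ × ℝ → F} (hf : Per f) (p : ℝ × ℝ) : f (lp (pol p)) = f p :=
  hf.eq_of_pol_eq (pol_lp (pol_ne_zero p))

lemma per_comp_pol {F : Type*} (g : E2 → F) : Per fun p => g (pol p) := fun w θ => by
  simp only [pol_periodic]

lemma injOn_pol (a : ℝ) : InjOn pol (univ ×ˢ Ico a (a + 2 * π)) := by
  rintro p ⟨-, hp⟩ q ⟨-, hq⟩ h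
  obtain ⟨h1, k, hk⟩ := exists_int_of_pol_eq h
  have hπ := Real.pi_pos
  have h2 : (k : ℝ) < 1 := by
    by_contra hh
    nlinarith [hp.2, hq.1, not_lt.1 hh]
  have h3 : (-1 : ℝ) < k := by
    by_contra hh
    nlinarith [hp.1, hq.2, not_lt.1 hh]
  have h4 : k = 0 := by
    have : k < 1 := by exact_mod_cast h2
    have : -1 < k := by exact_mod_cast h3
    omega
  exact Prod.ext h1 (by simpa [h4] using hk)

lemma exists_pol_eq (a : ℝ) {y : E2} (hy : y ≠ 0) :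
    ∃ θ ∈ Ico a (a + 2 * π), pol (-Real.log ‖y‖, θ) = y := by
  have hπ : 0 < 2 * π := by positivity
  refine ⟨toIcoMod hπ a (lp y).2, toIcoMod_mem_Ico hπ a _, ?_⟩
  have h2 : Function.Periodic (fun θ => pol (-Real.log ‖y‖, θ)) (2 * π) := pol_periodic _
  rw [toIcoMod]
  exact (h2.sub_zsmul_eq _).trans (pol_lp hy)

lemma image_pol (a : ℝ) (I : Set ℝ) :
    pol '' (I ×ˢ Ico a (a + 2 * π)) = {y | y ≠ 0 ∧ -Real.log ‖y‖ ∈ I} := by
  ext y
  constructor
  · rintro ⟨p, hp, rfl⟩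
    refine ⟨pol_ne_zero p, ?_⟩
    rw [norm_pol, Real.log_exp, neg_neg]
    exact hp.1
  · rintro ⟨hy, hI⟩
    obtain ⟨θ, hθ, h⟩ := exists_pol_eq a hy
    exact ⟨_, ⟨hI, hθ⟩, h⟩

lemma isCompact_image_pol (a b : ℝ) : IsCompact (pol '' (Icc a b ×ˢ univ)) := by
  have h : pol '' (Icc a b ×ˢ univ) = pol '' (Icc a b ×ˢ Icc 0 (0 + 2 * π)) := by
    refine Subset.antisymm ?_ (image_mono (prod_mono Subset.rfl (subset_univ _)))
    rintro _ ⟨p, hp, rfl⟩
    obtain ⟨θ, hθ, h⟩ := exists_pol_eq 0 (pol_ne_zero p)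
    rw [norm_pol, Real.log_exp, neg_neg] at h
    exact ⟨(p.1, θ), ⟨hp.1, Ico_subset_Icc_self hθ⟩, h⟩
  rw [h]
  exact (isCompact_Icc.prod isCompact_Icc).image continuous_pol

/-- the derivative of the inverse at `y` -/
noncomputable def dlp (y : E2) : E2 →L[ℝ] ℝ × ℝ :=
  (‖y‖ ^ 2)⁻¹ • (-innerSL ℝ y).prod (innerSL ℝ (Jr y))

lemma inner_E2 (y z : E2) : inner ℝ y z = y 0 * z 0 + y 1 * z 1 := by
  simp [PiLp.inner_apply, Fin.sum_univ_two, mul_comm]

lemma dlp_apply (y z : E2) : dlp y z =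
    (-(y 0 * z 0 + y 1 * z 1) / ‖y‖ ^ 2, (y 0 * z 1 - y 1 * z 0) / ‖y‖ ^ 2) := by
  simp only [dlp, smul_apply, ContinuousLinearMap.prod_apply,
    neg_apply, innerSL_apply_apply, inner_E2, Jr_zero, Jr_one, Prod.smul_mk,
    smul_eq_mul]
  refine Prod.ext ?_ ?_ <;> simp only <;> ring

lemma dlp_dpol {y : E2} (hy : y ≠ 0) (v : ℝ × ℝ) : dlp y (dpol y v) = v := by
  have h1 : ‖y‖ ^ 2 ≠ 0 := pow_ne_zero _ (norm_ne_zero_iff.2 hy)
  have h2 := norm_sq_E2 y
  rw [dlp_apply, dpol_apply]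
  refine Prod.ext ?_ ?_ <;> simp <;> field_simp <;> rw [h2] <;> ring

lemma dpol_dlp {y : E2} (hy : y ≠ 0) (z : E2) : dpol y (dlp y z) = z := by
  have h1 : ‖y‖ ^ 2 ≠ 0 := pow_ne_zero _ (norm_ne_zero_iff.2 hy)
  have h2 := norm_sq_E2 y
  rw [dlp_apply, dpol_apply]
  refine E2_ext ?_ ?_ <;> simp <;> field_simp <;> rw [h2] <;> ring

/-- the derivative of polar coordinates as an isomorphism -/
noncomputable def dpolE {y : E2} (hy : y ≠ 0) : (ℝ × ℝ) ≃L[ℝ] E2 :=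
  ContinuousLinearEquiv.equivOfInverse (dpol y) (dlp y) (dlp_dpol hy) (dpol_dlp hy)

/-- polar coordinates have smooth local inverses -/
lemma exists_local_inv (p : ℝ × ℝ) : ∃ σ : E2 → ℝ × ℝ, ContDiffAt ℝ ∞ σ (pol p) ∧ σ (pol p) = p ∧
    (∀ᶠ y in 𝓝 (pol p), pol (σ y) = y) ∧ ∀ᶠ q in 𝓝 p, σ (pol q) = q := by
  have h1 : ContDiffAt ℝ ∞ pol p := contDiff_pol.contDiffAt
  have h2 : HasFDerivAt pol (dpolE (pol_ne_zero p) : ℝ × ℝ →L[ℝ] E2) p := hasFDerivAt_pol p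
  have h3 := h1.hasStrictFDerivAt' h2 (by simp)
  exact ⟨h1.localInverse h2 (by simp), h1.to_localInverse h2 (by simp),
    h1.localInverse_apply_image h2 (by simp), h3.eventually_right_inverse,
    h3.eventually_left_inverse⟩

/-- polar coordinates as a chart -/
lemma exists_chart_pol (p : ℝ × ℝ) : ∃ e : OpenPartialHomeomorph (ℝ × ℝ) E2,
    p ∈ e.source ∧ (e : ℝ × ℝ → E2) = pol := by
  have h1 : ContDiffAt ℝ ∞ pol p := contDiff_pol.contDiffAt
  have h2 : HasFDerivAt pol (dpolE (pol_ne_zero p) : ℝ × ℝ →L[ℝ] E2) p := hasFDerivAt_pol p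
  exact ⟨h1.toOpenPartialHomeomorph pol h2 (by simp),
    h1.mem_toOpenPartialHomeomorph_source h2 (by simp), rfl⟩

lemma map_pol_nhds (p : ℝ × ℝ) : map pol (𝓝 p) = 𝓝 (pol p) := by
  obtain ⟨e, hp, he⟩ := exists_chart_pol p
  rw [← he]
  exact e.map_nhds_eq hp

variable {F : Type*} [NormedAddCommGroup F] [NormedSpace ℝ F]

/-- a periodic function read in the plane -/
lemma Per.contDiffAt_lp {f : ℝ × ℝ → F} (hf : Per f) {n : WithTop ℕ∞} (hn : n ≤ ∞) {p : ℝ × ℝ}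
    (h : ContDiffAt ℝ n f p) : ContDiffAt ℝ n (fun y => f (lp y)) (pol p) := by
  obtain ⟨σ, h1, h2, h3, -⟩ := exists_local_inv p
  have h4 : ContDiffAt ℝ n (fun y => f (σ y)) (pol p) :=
    ContDiffAt.comp (g := f) (pol p) (by rwa [h2]) (h1.of_le hn)
  refine h4.congr_of_eventuallyEq ?_
  filter_upwards [h3] with y hy
  rw [← hf.lp_pol (σ y), hy]

lemma Per.continuousAt_lp {G : Type*} [TopologicalSpace G] {f : ℝ × ℝ → G} (hf : Per f)
    {p : ℝ × ℝ} (h : ContinuousAt f p) : ContinuousAt (fun y => f (lp y)) (pol p) := by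
  rw [ContinuousAt, ← map_pol_nhds, tendsto_map'_iff, hf.lp_pol]
  exact Tendsto.congr (fun q => (hf.lp_pol q).symm) h

lemma Per.hasFDerivAt_lp {f : ℝ × ℝ → F} (hf : Per f) {p : ℝ × ℝ} {f' : ℝ × ℝ →L[ℝ] F}
    (h : HasFDerivAt f f' p) :
    HasFDerivAt (fun y => f (lp y)) (f'.comp (dlp (pol p))) (pol p) := by
  obtain ⟨σ, h1, h2, h3, h4⟩ := exists_local_inv p
  have h5 : HasFDerivAt σ (dlp (pol p)) (pol p) := by
    have h6 := (h1.differentiableAt (by simp)).hasFDerivAt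
    have h7 := (h6.comp p (hasFDerivAt_pol p)).unique
      ((hasFDerivAt_id p).congr_of_eventuallyEq h4)
    refine h6.congr_fderiv (ContinuousLinearMap.ext fun z => ?_)
    have h8 := congrArg (fun L : ℝ × ℝ →L[ℝ] ℝ × ℝ => L (dlp (pol p) z)) h7
    simpa [dpol_dlp (pol_ne_zero p)] using h8
  have h6 : HasFDerivAt (fun y => f (σ y)) (f'.comp (dlp (pol p))) (pol p) :=
    HasFDerivAt.comp (g := f) (pol p) (by rwa [h2]) h5
  refine h6.congr_of_eventuallyEq ?_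
  filter_upwards [h3] with y hy
  rw [← hf.lp_pol (σ y), hy]

lemma norm_dlp_le (y : E2) : ‖dlp y‖ ≤ ‖y‖⁻¹ := by
  refine ContinuousLinearMap.opNorm_le_bound _ (by positivity) fun z => ?_
  rcases eq_or_ne y 0 with rfl | hy
  · simp [dlp]
  have h0 := norm_pos_iff.2 hy
  have h1 := abs_real_inner_le_norm y z
  have h2 := abs_real_inner_le_norm (Jr y) z
  rw [norm_Jr] at h2
  have h3 : ‖(-innerSL ℝ y).prod (innerSL ℝ (Jr y)) z‖ ≤ ‖y‖ * ‖z‖ := by
    rw [Prod.norm_def]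
    exact max_le (by simpa using h1) (by simpa using h2)
  rw [dlp, smul_apply, norm_smul, norm_inv, norm_pow, norm_norm]
  refine (mul_le_mul_of_nonneg_left h3 (by positivity)).trans (le_of_eq ?_)
  field_simp

/-! ### Derivatives in polar coordinates -/

variable {g : E2 → F} {p : ℝ × ℝ}

lemma fderiv_comp_pol (hg : DifferentiableAt ℝ g (pol p)) :
    fderiv ℝ (fun q => g (pol q)) p = (fderiv ℝ g (pol p)).comp (dpol (pol p)) :=
  (hg.hasFDerivAt.comp p (hasFDerivAt_pol p)).fderiv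

lemma dw_comp_pol (hg : DifferentiableAt ℝ g (pol p)) :
    dw (fun q => g (pol q)) p = -fderiv ℝ g (pol p) (pol p) := by
  simp [dw, pd, fderiv_comp_pol hg, dpol_apply]

lemma dth_comp_pol (hg : DifferentiableAt ℝ g (pol p)) :
    dth (fun q => g (pol q)) p = fderiv ℝ g (pol p) (Jr (pol p)) := by
  simp [dth, pd, fderiv_comp_pol hg, dpol_apply]

lemma hasFDerivAt_lin (hg : ContDiffAt ℝ 2 g (pol p)) (T : E2 →L[ℝ] E2) :
    HasFDerivAt (fun y => fderiv ℝ g y (T y)) ((fderiv ℝ g (pol p)).comp T +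
      (fderiv ℝ (fderiv ℝ g) (pol p)).flip (T (pol p))) (pol p) :=
  ((hg.fderiv_right (m := 1) (by norm_num)).differentiableAt one_ne_zero).hasFDerivAt.clm_apply
    T.hasFDerivAt

lemma eventually_diff (hg : ContDiffAt ℝ 2 g (pol p)) :
    ∀ᶠ q in 𝓝 p, DifferentiableAt ℝ g (pol q) := by
  filter_upwards [continuous_pol.continuousAt.eventually (hg.eventually (by simp))] with q hq
  exact hq.differentiableAt (by simp)

lemma dw_eq (hg : ContDiffAt ℝ 2 g (pol p)) : dw (fun q => g (pol q)) =ᶠ[𝓝 p]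
    fun q => fderiv ℝ g (pol q) ((-ContinuousLinearMap.id ℝ E2) (pol q)) := by
  filter_upwards [eventually_diff hg] with q hq
  rw [dw_comp_pol hq]; simp

lemma dth_eq (hg : ContDiffAt ℝ 2 g (pol p)) : dth (fun q => g (pol q)) =ᶠ[𝓝 p]
    fun q => fderiv ℝ g (pol q) (Jr (pol q)) := by
  filter_upwards [eventually_diff hg] with q hq
  rw [dth_comp_pol hq]

lemma dw_dw_comp_pol (hg : ContDiffAt ℝ 2 g (pol p)) : dw (dw fun q => g (pol q)) p =
    fderiv ℝ g (pol p) (pol p) + fderiv ℝ (fderiv ℝ g) (pol p) (pol p) (pol p) := by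
  have h := hasFDerivAt_lin hg (-ContinuousLinearMap.id ℝ E2)
  rw [dw, pd_congr (dw_eq hg), ← dw, dw_comp_pol h.differentiableAt, h.fderiv]
  simp [add_comm]

lemma dth_dw_comp_pol (hg : ContDiffAt ℝ 2 g (pol p)) : dth (dw fun q => g (pol q)) p =
    -(fderiv ℝ g (pol p) (Jr (pol p)) + fderiv ℝ (fderiv ℝ g) (pol p) (Jr (pol p)) (pol p)) := by
  have h := hasFDerivAt_lin hg (-ContinuousLinearMap.id ℝ E2)
  rw [dth, pd_congr (dw_eq hg), ← dth, dth_comp_pol h.differentiableAt, h.fderiv]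
  simp [add_comm]

lemma dth_dth_comp_pol (hg : ContDiffAt ℝ 2 g (pol p)) : dth (dth fun q => g (pol q)) p =
    -fderiv ℝ g (pol p) (pol p) + fderiv ℝ (fderiv ℝ g) (pol p) (Jr (pol p)) (Jr (pol p)) := by
  have h := hasFDerivAt_lin hg Jr
  rw [dth, pd_congr (dth_eq hg), ← dth, dth_comp_pol h.differentiableAt, h.fderiv]
  simp [Jr_Jr]

end Vale.Agent.P218MP
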