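import Vale.Agent.P218MP.Max
import Vale.Agent.P218MP.Polar

/-!
# P218 (helper40): uniqueness by the maximum principle, on compact sets and on exterior regions
-/

open Filter Topology Set Metric
open scoped Real

set_option maxSynthPendingDepth 3

namespace Vale.Agent.P218MP

open Vale.Agent.P218GA Vale.Agent.P218VA Vale.Agent.P272.K.LIN

/-- `φ` is a barrier for `u` and for `-u` at `x` -/
def Bar {X : Type*} [TopologicalSpace X] (u φ : X → ℝ) (x : X) : Prop :=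
  ∀ σ : ℝ, ∀ m > 0, σ * u x = m * φ x → ¬ IsLocalMax (fun y => σ * u y - m * φ y) x

section bar

variable {X Y : Type*} [TopologicalSpace X] [TopologicalSpace Y] {u φ : X → ℝ}

/-- barriers can be tested in any continuous parametrisation -/
lemma Bar.of_comp {ψ : Y → X} {y : Y} (hψ : ContinuousAt ψ y)
    (h : Bar (fun z => u (ψ z)) (fun z => φ (ψ z)) y) : Bar u φ (ψ y) :=
  fun σ m hm he hmax => h σ m hm he (hψ.eventually hmax)

lemma Bar.congr {u' φ' : X → ℝ} {x : X} (h : Bar u φ x) (hu : u' =ᶠ[𝓝 x] u) (hφ : φ' =ᶠ[𝓝 x] φ) :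
    Bar u' φ' x := by
  intro σ m hm he hmax
  rw [hu.self_of_nhds, hφ.self_of_nhds] at he
  refine h σ m hm he (hmax.congr ?_)
  filter_upwards [hu, hφ] with y h1 h2
  rw [h1, h2]

/-- **MP1.** Uniqueness on a compact set. -/
theorem eq_zero_of_bar {K Ω : Set X} (hK : IsCompact K) (hu : ContinuousOn u K)
    (hφ : ContinuousOn φ K) (hφ0 : ∀ x ∈ K, 0 < φ x) (hb : ∀ x ∈ K, x ∉ Ω → u x = 0)
    (hΩ : ∀ x ∈ Ω, K ∈ 𝓝 x) (hbar : ∀ x ∈ Ω, Bar u φ x) : ∀ x ∈ K, u x = 0 := by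
  have key : ∀ σ : ℝ, ∀ x ∈ K, σ * u x ≤ 0 := fun σ =>
    max_abstract (continuousOn_const.mul hu) hφ hφ0
      (fun ε _ => ⟨K, hK, Subset.rfl, fun x hx _ => ⟨x, hx, rfl, rfl⟩⟩)
      (fun x hx hx' => by rw [hb x hx hx', mul_zero]) hΩ fun x hx => hbar x hx σ
  intro x hx
  linarith [key 1 x hx, key (-1) x hx]

end bar

variable {E : Type*} [NormedAddCommGroup E] [NormedSpace ℝ E] [FiniteDimensional ℝ E]

omit [FiniteDimensional ℝ E] in
lemma jet_mul_const {f : E → ℝ} {y : E} {c : ℝ} : jet (fun z => c * f z) y = c • jet f y := by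
  have h0 : (fun z => c * f z) = c • f := rfl
  have h1 : fderiv ℝ (c • f) = c • fderiv ℝ f := fderiv_const_smul_field c
  have h2 : fderiv ℝ (c • fderiv ℝ f) = c • fderiv ℝ (fderiv ℝ f) := fderiv_const_smul_field c
  unfold jet
  rw [h0, h1, h2]
  rfl

/-- a strict supersolution of a degenerate elliptic equation is a barrier -/
lemma bar_of_jet {u φ : E → ℝ} {x : E} (hu : ContDiffAt ℝ 2 u x) (hφ : ContDiffAt ℝ 2 φ x)
    (l : Jet E →L[ℝ] ℝ) (hl : ∀ ξ : E →L[ℝ] ℝ, 0 ≤ l (0, 0, ξ.smulRight ξ))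
    (hlu : l (jet u x) = 0) (hlφ : l (jet φ x) < 0) : Bar u φ x := by
  intro σ m hm he
  have e : ∀ f : E → ℝ, op (l.comp ((ContinuousLinearMap.inr ℝ ℝ _).comp
      (ContinuousLinearMap.inr ℝ _ _))) (l.comp ((ContinuousLinearMap.inr ℝ ℝ _).comp
      (ContinuousLinearMap.inl ℝ _ _))) (l (1, 0, 0)) f x = l (jet f x) := by
    intro f
    have h1 : jet f x = (0, 0, fderiv ℝ (fderiv ℝ f) x) + (0, fderiv ℝ f x, 0)
        + f x • ((1, 0, 0) : Jet E) := by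
      simp [jet]
    rw [h1, map_add, map_add, map_smul, smul_eq_mul, mul_comm (f x)]
    rfl
  have e1 := e fun y => σ * u y
  rw [jet_mul_const, map_smul, hlu, smul_zero] at e1
  exact not_isLocalMax (u := fun y => σ * u y) (a := l.comp ((ContinuousLinearMap.inr ℝ ℝ _).comp
      (ContinuousLinearMap.inr ℝ _ _))) hl (contDiffAt_const.mul hu) hφ e1.ge
    ((e φ).trans_lt hlφ) hm he

omit [FiniteDimensional ℝ E] in
/-- a cone is a barrier for differentiable functions -/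
lemma bar_of_cone [Nontrivial E] {u φ : E → ℝ} (hu : DifferentiableAt ℝ u 0) {κ : ℝ} (hκ : 0 < κ)
    (hφ : ∀ᶠ y in 𝓝 (0 : E), φ y ≤ φ 0 - κ * ‖y‖) : Bar u φ 0 := by
  intro σ m hm he hmax
  have h1 : IsLocalMax (fun y => σ * u y) 0 := by
    filter_upwards [hmax, hφ] with y h2 h3
    nlinarith [mul_nonneg hκ.le (norm_nonneg y)]
  have h2 : HasFDerivAt (fun y => σ * u y) (0 : E →L[ℝ] ℝ) 0 := by
    have h3 := (hu.const_mul σ).hasFDerivAt
    rwa [h1.fderiv_eq_zero] at h3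
  have h3 := h2.isLittleO.bound (half_pos (mul_pos hm hκ))
  have h4 : ∀ᶠ y in 𝓝[≠] (0 : E), False := by
    filter_upwards [nhdsWithin_le_nhds hmax, nhdsWithin_le_nhds hφ, nhdsWithin_le_nhds h3,
      self_mem_nhdsWithin] with y a1 a2 a3 a4
    have a5 : 0 < ‖y‖ := norm_pos_iff.2 a4
    simp only [zero_apply, sub_zero, Real.norm_eq_abs] at a1 a2 a3
    have a6 := (abs_le.1 a3).1
    nlinarith [mul_pos (mul_pos hm hκ) a5]
  exact h4.exists.choose_spec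

/-- the operator with coefficients `a11, a12, a22, b1, b2, c` on the strip -/
noncomputable def lop (a11 a12 a22 b1 b2 c : ℝ) (u : ℝ × ℝ → ℝ) (p : ℝ × ℝ) : ℝ :=
  a11 * dw (dw u) p + a12 * dth (dw u) p + a22 * dth (dth u) p + b1 * dw u p + b2 * dth u p
    + c * u p

/-- barriers on the strip -/
lemma bar_strip {u φ : ℝ × ℝ → ℝ} {p : ℝ × ℝ} (hu : ContDiffAt ℝ 2 u p) (hφ : ContDiffAt ℝ 2 φ p)
    {a11 a12 a22 b1 b2 c : ℝ} (h11 : 0 ≤ a11) (h22 : 0 ≤ a22) (h12 : a12 ^ 2 ≤ 4 * a11 * a22)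
    (hlu : lop a11 a12 a22 b1 b2 c u p = 0) (hlφ : lop a11 a12 a22 b1 b2 c φ p < 0) :
    Bar u φ p := by
  let e1 : (ℝ × ℝ) → Jet (ℝ × ℝ) →L[ℝ] ℝ := fun v => (ContinuousLinearMap.apply ℝ ℝ v).comp
    ((ContinuousLinearMap.fst ℝ _ _).comp (ContinuousLinearMap.snd ℝ ℝ _))
  let e2 : (ℝ × ℝ) → (ℝ × ℝ) → Jet (ℝ × ℝ) →L[ℝ] ℝ := fun v v' =>
    (ContinuousLinearMap.apply ℝ ℝ v').comp
      ((ContinuousLinearMap.apply ℝ ((ℝ × ℝ) →L[ℝ] ℝ) v).comp
        ((ContinuousLinearMap.snd ℝ _ _).comp (ContinuousLinearMap.snd ℝ ℝ _)))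
  let l : Jet (ℝ × ℝ) →L[ℝ] ℝ := a11 • e2 (1, 0) (1, 0) + a12 • e2 (0, 1) (1, 0)
    + a22 • e2 (0, 1) (0, 1) + b1 • e1 (1, 0) + b2 • e1 (0, 1) + c • ContinuousLinearMap.fst ℝ _ _
  have hl : ∀ j : Jet (ℝ × ℝ), l j = a11 * j.2.2 (1, 0) (1, 0) + a12 * j.2.2 (0, 1) (1, 0)
      + a22 * j.2.2 (0, 1) (0, 1) + b1 * j.2.1 (1, 0) + b2 * j.2.1 (0, 1) + c * j.1 := fun j => rfl
  have he : ∀ f : ℝ × ℝ → ℝ, ContDiffAt ℝ 2 f p → l (jet f p) = lop a11 a12 a22 b1 b2 c f p := by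
    intro f hf
    rw [hl]
    simp only [lop, dw, dth]
    rw [pd_pd_eq hf, pd_pd_eq hf, pd_pd_eq hf]
    rfl
  refine bar_of_jet hu hφ l (fun ξ => ?_) (by rwa [he u hu]) (by rwa [he φ hφ])
  rw [hl]
  simp only [ContinuousLinearMap.smulRight_apply, smul_apply, smul_eq_mul, zero_apply, mul_zero,
    add_zero]
  generalize ξ (1, 0) = x
  generalize ξ (0, 1) = y
  rcases h11.eq_or_lt with h | h
  · have h3 : a12 = 0 := by
      rw [← h, mul_zero, zero_mul] at h12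
      exact pow_eq_zero_iff two_ne_zero |>.1 (le_antisymm h12 (sq_nonneg _))
    rw [← h, h3]
    nlinarith [mul_self_nonneg y]
  · by_contra hh
    nlinarith [sq_nonneg (2 * a11 * x + a12 * y), mul_nonneg (sub_nonneg.2 h12) (mul_self_nonneg y),
      not_le.1 hh]

/-- the operator on a function of the first variable -/
lemma lop_fst {φ φ' : ℝ → ℝ} {φ'' : ℝ} {p : ℝ × ℝ} (h1 : ∀ᶠ w in 𝓝 p.1, HasDerivAt φ (φ' w) w)
    (h2 : HasDerivAt φ' φ'' p.1) (a11 a12 a22 b1 b2 c : ℝ) :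
    lop a11 a12 a22 b1 b2 c (fun q => φ q.1) p = a11 * φ'' + b1 * φ' p.1 + c * φ p.1 := by
  have key : ∀ {f : ℝ → ℝ} {f' : ℝ} {q : ℝ × ℝ}, HasDerivAt f f' q.1 → ∀ v : ℝ × ℝ,
      pd (fun q : ℝ × ℝ => f q.1) v q = f' * v.1 := by
    intro f f' q h v
    have h3 := h.hasFDerivAt.comp q (hasFDerivAt_fst (𝕜 := ℝ) (p := q))
    rw [pd, show (fun q : ℝ × ℝ => f q.1) = f ∘ Prod.fst from rfl, h3.fderiv]
    simp [mul_comm]
  have h3 : ∀ᶠ q in 𝓝 p, HasDerivAt φ (φ' q.1) q.1 := continuous_fst.continuousAt.eventually h1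
  have h4 : dw (fun q : ℝ × ℝ => φ q.1) =ᶠ[𝓝 p] fun q => φ' q.1 := by
    filter_upwards [h3] with q hq
    rw [dw, key hq, mul_one]
  have h5 : ∀ᶠ q in 𝓝 p, dth (fun q : ℝ × ℝ => φ q.1) q = 0 := by
    filter_upwards [h3] with q hq
    rw [dth, key hq, mul_zero]
  have h6 : dw (dw fun q : ℝ × ℝ => φ q.1) p = φ'' := by
    rw [dw, pd_congr h4, key h2, mul_one]
  have h7 : dth (dw fun q : ℝ × ℝ => φ q.1) p = 0 := by
    rw [dth, pd_congr h4, key h2, mul_zero]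
  have h8 : dth (dth fun q : ℝ × ℝ => φ q.1) p = 0 := pd_of_eventually_zero h5 _
  rw [lop, h6, h7, h8, h4.self_of_nhds, h5.self_of_nhds]
  ring

/-- Uniqueness on the half cylinder, for functions which grow more slowly than a barrier. -/
theorem eq_zero_of_bar_ext {s : ℝ} {u : ℝ × ℝ → ℝ} {φ : ℝ → ℝ}
    (hu : ContinuousOn u (Ici s ×ˢ univ)) (hφ : ContinuousOn φ (Ici s))
    (hφ0 : ∀ w, s ≤ w → 0 < φ w) (hper : Per u)
    (hgr : ∀ ε > 0, ∃ R, ∀ w θ, R ≤ w → |u (w, θ)| < ε * φ w) (hb : ∀ θ, u (s, θ) = 0)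
    (hbar : ∀ p : ℝ × ℝ, s < p.1 → Bar u (fun q => φ q.1) p) :
    ∀ p : ℝ × ℝ, s ≤ p.1 → u p = 0 := by
  have key : ∀ σ : ℝ, |σ| = 1 → ∀ x ∈ Ici s ×ˢ (univ : Set ℝ), σ * u x ≤ 0 := fun σ hσ =>
    max_abstract (Ω := Ioi s ×ˢ univ) (φ := fun y => φ y.1) (continuousOn_const.mul hu)
      (hφ.comp continuous_fst.continuousOn fun x hx => hx.1) (fun x hx => hφ0 _ hx.1)
      (fun ε hε => by
        obtain ⟨R, hR⟩ := hgr ε hε
        refine ⟨Icc s R ×ˢ Icc 0 (2 * π), isCompact_Icc.prod isCompact_Icc,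
          fun x hx => ⟨hx.1.1, trivial⟩, fun x hx h1 => ?_⟩
        have hp : Function.Periodic (fun θ => u (x.1, θ)) (2 * π) := hper x.1
        obtain ⟨θ, hθ, h2⟩ := hp.exists_mem_Ico₀ (by positivity) x.2
        refine ⟨(x.1, θ), ⟨⟨hx.1, ?_⟩, Ico_subset_Icc_self hθ⟩, by rw [← h2], rfl⟩
        by_contra h3
        have h4 := hR x.1 x.2 (not_le.1 h3).le
        have h5 := le_abs_self (σ * u x)
        rw [abs_mul, hσ, one_mul] at h5
        exact absurd (h1.trans h5) (not_le.2 h4))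
      (fun x hx hx' => by
        have h1 : x.1 = s := le_antisymm (not_lt.1 fun h => hx' ⟨h, trivial⟩) hx.1
        have h2 := hb x.2
        rw [← h1] at h2
        rw [h2, mul_zero])
      (fun x hx => mem_of_superset ((isOpen_Ioi.prod isOpen_univ).mem_nhds hx)
        fun y hy => ⟨mem_Ici.2 (le_of_lt hy.1), trivial⟩)
      fun x hx => hbar x hx.1 σ
  intro p hp
  linarith [key 1 abs_one p ⟨hp, trivial⟩, key (-1) (by simp) p ⟨hp, trivial⟩]

/-- **MP2.** Exterior uniqueness in the class of polynomial growth; the barrier is `w ^ β`. -/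
theorem eq_zero_ext {s : ℝ} (hs : 0 < s) {u : ℝ × ℝ → ℝ} (hu : ContinuousOn u (Ici s ×ˢ univ))
    (hper : Per u) (hb : ∀ θ, u (s, θ) = 0) {C b β : ℝ} (hβ : b < β)
    (hgr : ∀ p : ℝ × ℝ, s ≤ p.1 → |u p| ≤ C * p.1 ^ b)
    (hop : ∀ p : ℝ × ℝ, s < p.1 → ContDiffAt ℝ 2 u p ∧ ∃ a11 a12 a22 b1 b2 c : ℝ, 0 ≤ a11 ∧
      0 ≤ a22 ∧ a12 ^ 2 ≤ 4 * a11 * a22 ∧ lop a11 a12 a22 b1 b2 c u p = 0 ∧
      a11 * (β * (β - 1)) + b1 * (β * p.1) + c * p.1 ^ 2 < 0) :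
    ∀ p : ℝ × ℝ, s ≤ p.1 → u p = 0 := by
  refine eq_zero_of_bar_ext (φ := fun w => w ^ β) hu
    (continuousOn_id.rpow_const fun w hw => Or.inl (hs.trans_le hw).ne')
    (fun w hw => Real.rpow_pos_of_pos (hs.trans_le hw) _) hper (fun ε hε => ?_) hb fun p hp => ?_
  · have h1 := (tendsto_rpow_atTop (sub_pos.2 hβ)).eventually_gt_atTop (C / ε)
    obtain ⟨R, hR⟩ := eventually_atTop.1 h1
    refine ⟨max R s, fun w θ hw => ?_⟩
    have h2 := hR w ((le_max_left _ _).trans hw)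
    have h3 : s ≤ w := (le_max_right _ _).trans hw
    have h4 := hs.trans_le h3
    refine (hgr (w, θ) h3).trans_lt ?_
    rw [div_lt_iff₀ hε] at h2
    rw [show β = β - b + b by ring, Real.rpow_add h4, ← mul_assoc, mul_comm ε]
    exact mul_lt_mul_of_pos_right h2 (Real.rpow_pos_of_pos h4 _)
  · obtain ⟨h1, a11, a12, a22, b1, b2, c, h11, h22, h12, h2, h3⟩ := hop p hp
    have hw := hs.trans hp
    refine bar_strip h1 (contDiffAt_fst.rpow_const_of_ne hw.ne') h11 h22 h12 h2 ?_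
    rw [lop_fst (φ := fun w => w ^ β) (φ' := fun w => β * w ^ (β - 1))
      (φ'' := β * ((β - 1) * p.1 ^ (β - 1 - 1)))
      ((eventually_gt_nhds hw).mono fun w h => Real.hasDerivAt_rpow_const (Or.inl h.ne'))
      ((Real.hasDerivAt_rpow_const (Or.inl hw.ne')).const_mul β)]
    have h4 : 0 < p.1 ^ (β - 1 - 1) := Real.rpow_pos_of_pos hw _
    have h5 : p.1 ^ (β - 1) = p.1 ^ (β - 1 - 1) * p.1 := by
      rw [← Real.rpow_add_one hw.ne']; congr 1; ring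
    have h6 : p.1 ^ β = p.1 ^ (β - 1 - 1) * p.1 * p.1 := by
      rw [← h5, ← Real.rpow_add_one hw.ne']; congr 1; ring
    rw [h5, h6]
    nlinarith [mul_pos h4 (neg_pos.2 h3)]

/-- the barrier condition for operators close to `∂_w² - ∂_w + c₀ / w` -/
lemma barrier_cond {a11 b1 c c0 β w : ℝ} (hb : b1 < 0) (ha : a11 ≤ 2 * -b1) (hc : c * w ≤ c0 * -b1)
    (hβ : 2 * c0 ≤ β) (hβ1 : 1 ≤ β) (hw : 4 * β ≤ w) :
    a11 * (β * (β - 1)) + b1 * (β * w) + c * w ^ 2 < 0 := by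
  have h1 : a11 * (β * (β - 1)) ≤ 2 * -b1 * (β * (β - 1)) :=
    mul_le_mul_of_nonneg_right ha (by nlinarith)
  have h2 : c * w * w ≤ c0 * -b1 * w := mul_le_mul_of_nonneg_right hc (by linarith)
  have h3 : 2 * (β * (β - 1)) - β * w + c0 * w < 0 := by nlinarith
  nlinarith [mul_pos (neg_pos.2 hb) (neg_pos.2 h3)]

/-- **MP1 on a disc**, with the barrier `1 - κ |y| = 1 - κ e^{-w}`. -/
theorem eq_zero_disc {g : E2 → ℝ} {s κ : ℝ} (hκ : 0 < κ) (hκs : κ * Real.exp (-s) < 1)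
    (hg : ContinuousOn g (closedBall 0 (Real.exp (-s)))) (hd : DifferentiableAt ℝ g 0)
    (hb : ∀ θ, g (pol (s, θ)) = 0)
    (hop : ∀ p : ℝ × ℝ, s < p.1 → ContDiffAt ℝ 2 (fun q => g (pol q)) p ∧
      ∃ a11 a12 a22 b1 b2 c : ℝ, 0 ≤ a11 ∧ 0 ≤ a22 ∧ a12 ^ 2 ≤ 4 * a11 * a22 ∧
        lop a11 a12 a22 b1 b2 c (fun q => g (pol q)) p = 0 ∧
        (b1 - a11) * (κ * Real.exp (-p.1)) + c * (1 - κ * Real.exp (-p.1)) < 0) :
    ∀ y ∈ closedBall (0 : E2) (Real.exp (-s)), g y = 0 := by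
  refine eq_zero_of_bar (Ω := ball 0 (Real.exp (-s))) (φ := fun y => 1 - κ * ‖y‖)
    (isCompact_closedBall _ _) hg (by fun_prop) (fun y hy => ?_) (fun y hy hy' => ?_)
    (fun y hy => mem_of_superset (isOpen_ball.mem_nhds hy) ball_subset_closedBall) fun y hy => ?_
  · have := mul_le_mul_of_nonneg_left (mem_closedBall_zero_iff.1 hy) hκ.le
    linarith
  · have h1 : ‖y‖ = Real.exp (-s) :=
      le_antisymm (mem_closedBall_zero_iff.1 hy) (not_lt.1 fun h => hy' (mem_ball_zero_iff.2 h))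
    obtain ⟨θ, -, h2⟩ := exists_pol_eq 0 (y := y) (by
      rw [← norm_pos_iff, h1]; exact Real.exp_pos _)
    rw [h1, Real.log_exp, neg_neg] at h2
    rw [← h2, hb]
  · rcases eq_or_ne y 0 with rfl | hy0
    · exact bar_of_cone hd hκ (Eventually.of_forall fun y => by simp)
    obtain ⟨p, rfl⟩ : ∃ p, pol p = y := ⟨_, pol_lp hy0⟩
    obtain ⟨h1, a11, a12, a22, b1, b2, c, h11, h22, h12, h2, h3⟩ := hop p (pol_mem_ball.1 hy)
    refine Bar.of_comp continuous_pol.continuousAt ?_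
    simp only [norm_pol]
    refine bar_strip h1 (by fun_prop) h11 h22 h12 h2 ?_
    have h4 : ∀ w : ℝ, HasDerivAt (fun w => κ * Real.exp (-w)) (-(κ * Real.exp (-w))) w := fun w =>
      HasDerivAt.congr_deriv ((hasDerivAt_neg w).exp.const_mul κ) (by ring)
    rw [lop_fst (φ := fun w => 1 - κ * Real.exp (-w)) (φ' := fun w => κ * Real.exp (-w))
      (Eventually.of_forall fun w => HasDerivAt.congr_deriv ((h4 w).const_sub 1) (neg_neg _))
      (h4 p.1)]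
    linarith

end Vale.Agent.P218MP
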