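import Vale.Agent.P218MP.Polar
import Vale.Agent.P218VA.Int

/-!
# P218 (helper40): smooth functions of compact support dual to a finite-dimensional space
-/

open Filter Topology Set Metric MeasureTheory
open scoped Real ContDiff

set_option linter.unusedSectionVars false

namespace Vale.Agent.P218MP

open Vale.Agent.P218GA Vale.Agent.P218VA Vale.Agent.P272.K.LIN

variable {M : Type*} [TopologicalSpace M] [ChartedSpace E2 M] [RSm E2 M] [T2Space M]
  [MeasurableSpace M] [BorelSpace M]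

/-- smooth functions which vanish outside a compact subset of `O` -/
def Tst (O : Set M) : Submodule ℝ (M → ℝ) where
  carrier := {e | CkFn E2 ∞ e ∧ ∃ Q, IsCompact Q ∧ Q ⊆ O ∧ ∀ x, x ∉ Q → e x = 0}
  add_mem' := by
    rintro e e' ⟨h1, Q, hQ, hQO, h2⟩ ⟨h1', Q', hQ', hQO', h2'⟩
    refine ⟨h1.add h1', Q ∪ Q', hQ.union hQ', union_subset hQO hQO', fun x hx => ?_⟩
    rw [Pi.add_apply, h2 x fun h => hx (Or.inl h), h2' x fun h => hx (Or.inr h), add_zero]
  zero_mem' := ⟨ckFn_const 0, ∅, isCompact_empty, empty_subset _, fun _ _ => rfl⟩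
  smul_mem' := by
    rintro c e ⟨h1, Q, hQ, hQO, h2⟩
    exact ⟨(ckFn_const c).smul h1, Q, hQ, hQO, fun x hx => by simp [h2 x hx]⟩

lemma exists_bump {V : Set M} (hV : IsOpen V) {x : M} (hx : x ∈ V) :
    ∃ e ∈ Tst V, e x = 1 ∧ ∀ y, 0 ≤ e y := by
  set c := chartAt E2 x
  have hxs : x ∈ c.source := mem_chart_source E2 x
  have h1 : c.target ∩ c.symm ⁻¹' V ∈ 𝓝 (c x) :=
    (c.continuousOn_symm.isOpen_inter_preimage c.open_target hV).mem_nhds
      ⟨c.map_source hxs, by rwa [mem_preimage, c.left_inv hxs]⟩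
  obtain ⟨r, hr, hr'⟩ := Metric.nhds_basis_closedBall.mem_iff.1 h1
  let β : ContDiffBump (c x) := ⟨r / 2, r, half_pos hr, half_lt_self hr⟩
  have hβ : ∀ y, y ∉ closedBall (c x) r → β y = 0 := fun y hy =>
    β.zero_of_le_dist (not_le.1 hy).le
  have ht : closedBall (c x) r ⊆ c.target := fun y hy => (hr' hy).1
  refine ⟨ext0 c β, ⟨ext0_ck le_rfl (chart_mem_atlas E2 x) (isCompact_closedBall _ _) ht hβ
    fun y _ => β.contDiffAt, c.symm '' closedBall (c x) r,
    (isCompact_closedBall _ _).image_of_continuousOn (c.continuousOn_symm.mono ht), ?_,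
    fun y hy => ?_⟩, ?_, fun y => indicator_nonneg (fun _ _ => β.nonneg) y⟩
  · rintro _ ⟨y, hy, rfl⟩
    exact (hr' hy).2
  · by_cases h : y ∈ c.source
    · rw [ext0_of_mem h]
      exact hβ _ fun h' => hy ⟨_, h', c.left_inv h⟩
    · exact ext0_of_notMem h
  · rw [ext0_of_mem hxs]
    exact β.one_of_mem_closedBall (mem_closedBall_self (half_pos hr).le)

variable {O : Set M} {μ : Measure M}

lemma Tst.mono {O' : Set M} (h : O ⊆ O') {e : M → ℝ} (he : e ∈ Tst O) : e ∈ Tst O' := by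
  obtain ⟨h1, Q, hQ, hQO, h2⟩ := he
  exact ⟨h1, Q, hQ, hQO.trans h, h2⟩

lemma Tst.continuous_mul (hO : IsOpen O) {e : M → ℝ} (he : e ∈ Tst O) {U : M → ℝ}
    (hU : ContinuousOn U O) : Continuous fun x => e x * U x := by
  obtain ⟨h1, Q, hQ, hQO, h2⟩ := he
  exact continuous_of_support hO hQ hQO ((ckFn_continuous h1).continuousOn.mul hU)
    fun y hy => by rw [h2 y hy, zero_mul]

lemma Tst.integrable_mul [IsFiniteMeasureOnCompacts μ] (hO : IsOpen O) {e : M → ℝ}
    (he : e ∈ Tst O) {U : M → ℝ} (hU : ContinuousOn U O) : Integrable (fun x => e x * U x) μ := by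
  obtain ⟨h1, Q, hQ, hQO, h2⟩ := he
  exact integrable_of_support hO hQ hQO ((ckFn_continuous h1).continuousOn.mul hU)
    fun y hy => by rw [h2 y hy, zero_mul]

/-- a continuous function orthogonal to all test functions vanishes -/
lemma eq_zero_of_tst [IsFiniteMeasureOnCompacts μ] (hO : IsOpen O)
    (hpos : ∀ V, IsOpen V → V ⊆ O → V.Nonempty → μ V ≠ 0) {U : M → ℝ} (hU : ContinuousOn U O)
    (h : ∀ e ∈ Tst O, ∫ x, e x * U x ∂μ = 0) : ∀ x ∈ O, U x = 0 := by
  intro x hx
  by_contra hne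
  have hV : IsOpen (O ∩ (fun y => U x * U y) ⁻¹' Ioi 0) :=
    (continuousOn_const.mul hU).isOpen_inter_preimage hO isOpen_Ioi
  obtain ⟨e, he, he1, he0⟩ := exists_bump hV (x := x) ⟨hx, mul_self_pos.2 hne⟩
  have heO := Tst.mono inter_subset_left he
  have hc := (Tst.continuous_mul hO heO hU).const_mul (U x)
  have hi := (Tst.integrable_mul (μ := μ) hO heO hU).const_mul (U x)
  have h0 : ∀ y, 0 ≤ U x * (e y * U y) := by
    intro y
    obtain ⟨-, Q, -, hQ, h2⟩ := he
    by_cases hy : y ∈ Q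
    · rw [mul_left_comm]
      exact mul_nonneg (he0 y) (le_of_lt (hQ hy).2)
    · rw [h2 y hy, zero_mul, mul_zero]
  have h1 : ∫ y, U x * (e y * U y) ∂μ = 0 := by rw [integral_const_mul, h e heO, mul_zero]
  have h2 := (integral_eq_zero_iff_of_nonneg h0 hi).1 h1
  refine hpos (O ∩ {y | U x * (e y * U y) ≠ 0}) (hO.inter (isOpen_ne_fun hc continuous_const))
    inter_subset_left ⟨x, hx, ?_⟩ (measure_mono_null inter_subset_right h2)
  rw [mem_ofPred_eq, he1, one_mul]
  exact mul_self_ne_zero.2 hne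

/-- **Dual test functions.** `K` is a finite-dimensional space, `ev : K → (M → ℝ)`. -/
theorem exists_dual [IsFiniteMeasureOnCompacts μ] (hO : IsOpen O)
    (hpos : ∀ V, IsOpen V → V ⊆ O → V.Nonempty → μ V ≠ 0)
    {K : Type*} [AddCommGroup K] [Module ℝ K] [FiniteDimensional ℝ K] (ev : K →ₗ[ℝ] (M → ℝ))
    (hc : ∀ U, ContinuousOn (ev U) O) (hinj : ∀ U, (∀ x ∈ O, ev U x = 0) → U = 0)
    {ι : Type*} (l : ι → K →ₗ[ℝ] ℝ) :
    ∃ e : ι → M → ℝ, (∀ i, e i ∈ Tst O) ∧ ∀ i U, ∫ x, e i x * ev U x ∂μ = l i U := by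
  let B : Tst O →ₗ[ℝ] Module.Dual ℝ K := LinearMap.mk₂ ℝ (fun e U => ∫ x, e.1 x * ev U x ∂μ)
    (fun e e' U => by
      rw [← integral_add (Tst.integrable_mul hO e.2 (hc U)) (Tst.integrable_mul hO e'.2 (hc U))]
      simp [add_mul])
    (fun c e U => by
      rw [smul_eq_mul, ← integral_const_mul]
      simp [mul_assoc])
    (fun e U U' => by
      rw [← integral_add (Tst.integrable_mul hO e.2 (hc U)) (Tst.integrable_mul hO e.2 (hc U'))]
      simp [mul_add])
    (fun c e U => by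
      rw [smul_eq_mul, ← integral_const_mul]
      simp [mul_left_comm])
  have hB : LinearMap.range B = ⊤ := by
    have h1 : (LinearMap.range B).dualCoannihilator = ⊥ := by
      rw [eq_bot_iff]
      intro U hU
      rw [Submodule.mem_dualCoannihilator] at hU
      exact hinj U (eq_zero_of_tst hO hpos (hc U) fun e he => hU _ ⟨⟨e, he⟩, rfl⟩)
    rw [← Subspace.dualCoannihilator_dualAnnihilator_eq (W := LinearMap.range B), h1,
      Submodule.dualAnnihilator_bot]
  choose e he using fun i => LinearMap.range_eq_top.1 hB (l i)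
  exact ⟨fun i => (e i).1, fun i => (e i).2, fun i U => LinearMap.congr_fun (he i) U⟩

/-- the Gaussian area is positive on open sets -/
lemma isArea_pos [CompactSpace M] {F : M → C3} (h : IsArea O F μ) {V : Set M} (hV : IsOpen V)
    (hVO : V ⊆ O) (hne : V.Nonempty) : μ V ≠ 0 := by
  intro h0
  obtain ⟨x, hx⟩ := hne
  set c := chartAt E2 x
  have hxs : x ∈ c.source := mem_chart_source E2 x
  have hc : c ∈ atlas E2 M := chart_mem_atlas E2 x
  set A := c.target ∩ c.symm ⁻¹' V with hA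
  have hAo : IsOpen A := c.continuousOn_symm.isOpen_inter_preimage c.open_target hV
  obtain ⟨r, hr, hr'⟩ := Metric.isOpen_iff.1 hAo (c x)
    ⟨c.map_source hxs, by rwa [mem_preimage, c.left_inv hxs]⟩
  set g : M → ℂ := (c.source ∩ c ⁻¹' ball (c x) r).indicator
    fun y => (LagF u1 u2 (cX c F) (c y))⁻¹ with hg
  have hgV : ∀ y, y ∉ c.source ∩ V → g y = 0 := fun y hy => indicator_of_notMem (fun h' => hy
    ⟨h'.1, by have := (hr' h'.2).2; rwa [mem_preimage, c.left_inv h'.1] at this⟩) _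
  have h1 := h.chart c hc g fun y hy => hgV y fun h' => hy ⟨h'.1, hVO h'.2⟩
  have h2 : ∫ y, g y ∂μ = 0 := by
    refine integral_eq_zero_of_ae (measure_mono_null (fun y hy => ?_) h0)
    by_contra h'
    exact hy (hgV y fun h'' => h' h''.2)
  have h3 : ∫ y in c.target, g (c.symm y) * LagF u1 u2 (cX c F) y
      = ∫ y in c.target, (ball (c x) r).indicator (fun _ => (1 : ℂ)) y := by
    refine setIntegral_congr_fun c.open_target.measurableSet fun y hy => ?_
    by_cases hb : y ∈ ball (c x) r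
    · have h4 : c.symm y ∈ c.source ∩ c ⁻¹' ball (c x) r :=
        ⟨c.map_target hy, by rwa [mem_preimage, c.right_inv hy]⟩
      have h5 := (h.imm _ (hVO (hr' hb).2)).lag_ne hc (c.map_target hy)
      simp only [hg, indicator_of_mem h4, indicator_of_mem hb]
      rw [c.right_inv hy] at h5 ⊢
      exact inv_mul_cancel₀ h5
    · have h4 : c.symm y ∉ c.source ∩ c ⁻¹' ball (c x) r := fun h' => hb (by
        have := h'.2; rwa [mem_preimage, c.right_inv hy] at this)
      simp only [hg, indicator_of_notMem h4, indicator_of_notMem hb, zero_mul]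
  rw [h2, h3, setIntegral_indicator measurableSet_ball,
    inter_eq_right.2 fun y hy => (hr' hy).1, setIntegral_const] at h1
  have h4 : 0 < (volume : Measure E2).real (ball (c x) r) :=
    ENNReal.toReal_pos (measure_ball_pos _ _ hr).ne' measure_ball_lt_top.ne
  rw [Complex.real_smul, mul_one] at h1
  exact h4.ne (by exact_mod_cast h1)

/-- far out on an end, a compact set which does not contain the puncture is left -/
lemma exists_level {e : OpenPartialHomeomorph M E2} (h0 : (0 : E2) ∈ e.target) {Q : Set M}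
    (hQ : IsCompact Q) (hp : e.symm 0 ∉ Q) :
    ∃ s : ℝ, ∀ y : E2, ‖y‖ ≤ Real.exp (-s) → e.symm y ∉ Q := by
  have h1 := (e.symm.continuousAt h0).eventually (hQ.isClosed.isOpen_compl.mem_nhds hp)
  obtain ⟨r, hr, hr'⟩ := Metric.nhds_basis_closedBall.mem_iff.1 h1
  refine ⟨-Real.log r, fun y hy => hr' ?_⟩
  rwa [neg_neg, Real.exp_log hr, ← mem_closedBall_zero_iff] at hy

lemma isOpen_reg {S : Set E3} {w : E3 → ℝ} {δ C : ℝ} {ι κ N : Type} [Finite ι] [Finite κ]
    [TopologicalSpace N] [ChartedSpace E2 N] [T2Space N] (m : Model S w δ C ι κ N) :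
    IsOpen m.reg := by
  have : m.reg = ⋂ j, {(m.φ j).symm 0}ᶜ := by
    ext x; simp [Model.reg]
  rw [this]
  exact isOpen_iInter_of_finite fun j => isOpen_compl_singleton

/-- **The choice of the functions `e`** on the model. -/
theorem exists_dual_model {S : Set E3} {w : E3 → ℝ} {δ C : ℝ} {ι κ N : Type} [Finite ι] [Finite κ]
    [TopologicalSpace N] [ChartedSpace E2 N] [RSm E2 N] [T2Space N] [CompactSpace N]
    [MeasurableSpace N] [BorelSpace N] (m : Model S w δ C ι κ N) {F : N → C3} {ν : Measure N}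
    (hν : IsArea m.reg F ν)
    {K : Type*} [AddCommGroup K] [Module ℝ K] [FiniteDimensional ℝ K] (ev : K →ₗ[ℝ] (N → ℝ))
    (hc : ∀ U, ContinuousOn (ev U) m.reg) (hinj : ∀ U, (∀ x ∈ m.reg, ev U x = 0) → U = 0)
    {τ : Type*} [Finite τ] (l : τ → K →ₗ[ℝ] ℝ) :
    ∃ (e : τ → N → ℝ) (s : ℝ), (∀ i, e i ∈ Tst m.reg) ∧
      (∀ i j (y : E2), ‖y‖ ≤ Real.exp (-s) → e i ((m.φ j).symm y) = 0) ∧
      ∀ i U, ∫ x, e i x * ev U x ∂ν = l i U := by
  have := hν.fin
  obtain ⟨e, he, h⟩ := exists_dual (μ := ν) hν.opn (fun V h1 h2 h3 => isArea_pos hν h1 h2 h3)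
    ev hc hinj l
  have h1 : ∀ q : τ × (ι ⊕ κ), ∃ s : ℝ, ∀ y : E2, ‖y‖ ≤ Real.exp (-s) →
      e q.1 ((m.φ q.2).symm y) = 0 := by
    rintro ⟨i, j⟩
    obtain ⟨-, Q, hQ, hQO, h2⟩ := he i
    obtain ⟨s, hs⟩ := exists_level (e := m.φ j) (by
      rw [m.target]; exact mem_ball_self (Real.exp_pos _)) hQ fun h' => hQO h' j rfl
    exact ⟨s, fun y hy => h2 _ (hs y hy)⟩
  choose s hs using h1
  obtain ⟨B, hB⟩ := (finite_range s).bddAbove
  refine ⟨e, B, he, fun i j y hy => hs (i, j) y (hy.trans ?_), h⟩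
  exact Real.exp_le_exp.2 (neg_le_neg (hB ⟨_, rfl⟩))

end Vale.Agent.P218MP
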