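import Vale.Agent.P218MP.Four
import Vale.Agent.P218EN.WA

/-!
# P218 (helper40): functions with a Hoelder derivative in the angle belong to the Wiener algebra
-/

open Filter Topology Set Complex MeasureTheory
open scoped Real

namespace Vale.Agent.P218MP

open Vale.Agent.P218EN

/-- `f (w, θ)` is continuous, periodic in `θ`, bounded by `N`, and its derivative in `θ` is
Hoelder with constant `N` -/
structure WOK (α N : ℝ) (f : ℝ → ℝ → ℂ) : Prop where
  cont : Continuous fun p : ℝ × ℝ => f p.1 p.2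
  per : ∀ w, Function.Periodic (f w) (2 * π)
  bd : ∀ w θ, ‖f w θ‖ ≤ N
  der : ∀ w, ∃ f' : ℝ → ℂ, (∀ θ, HasDerivAt (f w) (f' θ) θ) ∧ Continuous f' ∧
    ∀ x y, ‖f' x - f' y‖ ≤ N * |x - y| ^ α

theorem continuous_fc {f : ℝ → ℝ → ℂ} (h : Continuous fun p : ℝ × ℝ => f p.1 p.2) (k : ℤ) :
    Continuous fun w => fc (f w) k := by
  unfold fc
  refine continuous_const.mul ?_
  refine intervalIntegral.continuous_parametric_intervalIntegral_of_continuous'
    (f := fun w θ => cexp (-(k * θ * I)) * f w θ) ?_ _ _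
  exact ((cont_ek k).comp continuous_snd).mul h

theorem WOK.norm_fc_le {α N : ℝ} {f : ℝ → ℝ → ℂ} (h : WOK α N f) (w : ℝ) (k : ℤ) :
    ‖fc (f w) k‖ ≤ N * wt α k := by
  obtain ⟨f', h1, h2, h3⟩ := h.der w
  exact norm_fc_le_wt h1 h2 (h.per w) (h.bd w) h3 k

theorem WOK.exists_WA {α N : ℝ} (hα : 0 < α) {f : ℝ → ℝ → ℂ} (h : WOK α N f) :
    ∃ x : WA, (∀ w θ, x.ev w θ = f w θ) ∧ ‖x‖ ≤ (∑' k, wt α k) * N := by
  have hN : 0 ≤ N := (norm_nonneg _).trans (h.bd 0 0)
  let c : ℤ → CB := fun k => BoundedContinuousFunction.ofNormedAddCommGroup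
    (fun w => fc (f w) k) (continuous_fc h.cont k) (N * wt α k) fun w => h.norm_fc_le w k
  have hc : ∀ k, ‖c k‖ ≤ N * wt α k := fun k =>
    BoundedContinuousFunction.norm_ofNormedAddCommGroup_le _ (mul_nonneg hN (wt_nonneg α k)) _
  have hs := (summable_wt hα).mul_left N
  have hs' : Summable fun k => ‖c k‖ := Summable.of_nonneg_of_le (fun _ => norm_nonneg _) hc hs
  refine ⟨WA.mk c hs', fun w θ => ?_, ?_⟩
  · have h1 : Summable (fc (f w)) := Summable.of_norm_bounded hs fun k => h.norm_fc_le w k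
    have h2 := hasSum_fc (h.cont.comp (continuous_const.prodMk continuous_id)) (h.per w) h1 θ
    exact h2.tsum_eq
  · refine (WA.norm_le_of (x := WA.mk c hs') hs fun k => ?_).trans (le_of_eq ?_)
    · rw [WA.co_mk]
      exact hc k
    rw [tsum_mul_left, mul_comm]

/-- bounded linear maps into the Wiener algebra -/
theorem exists_clm_WA {𝕜 : Type*} [NontriviallyNormedField 𝕜] [NormedAlgebra 𝕜 ℂ]
    [NormedSpace 𝕜 WA] [IsScalarTower 𝕜 ℂ WA]
    {P : Type*} [NormedAddCommGroup P] [NormedSpace 𝕜 P] {α : ℝ} (hα : 0 < α)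
    {F : P → ℝ → ℝ → ℂ} (hadd : ∀ p q w θ, F (p + q) w θ = F p w θ + F q w θ)
    (hsmul : ∀ (c : 𝕜) p w θ, F (c • p) w θ = c • F p w θ) {C : ℝ}
    (h : ∀ p, WOK α (C * ‖p‖) (F p)) :
    ∃ L : P →L[𝕜] WA, ∀ p w θ, (L p).ev w θ = F p w θ := by
  choose x hx hxn using fun p => (h p).exists_WA hα
  let L : P →ₗ[𝕜] WA :=
    { toFun := x
      map_add' := fun p q => WA.ev_inj fun w θ => by rw [WA.ev_add, hx, hx, hx, hadd]
      map_smul' := fun c p => WA.ev_inj fun w θ => by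
        rw [RingHom.id_apply, ← algebraMap_smul ℂ c (x p), WA.ev_smul, hx, hx, hsmul,
          Algebra.smul_def] }
  refine ⟨L.mkContinuous ((∑' k, wt α k) * C) fun p => ?_, hx⟩
  rw [mul_assoc]
  exact hxn p

end Vale.Agent.P218MP
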