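import Vale.Agent.P218MP.Polar
import Vale.Agent.P218MP.OfFun
import Vale.Agent.P272.K.LIN.C2

/-!
# P218 (helper40): the one-jet of a function of class `C^{2,α}` on a collar, in the Wiener algebra
-/

open Filter Topology Set Metric
open scoped Real ContDiff

set_option maxSynthPendingDepth 3
set_option linter.unusedSectionVars false

namespace Vale.Agent.P218MP

open Vale.Agent.P218GA Vale.Agent.P218VA Vale.Agent.P272.K.LIN Vale.Agent.P218EN

section jet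

variable {E : Type*} [NormedAddCommGroup E] [NormedSpace ℝ E] [FiniteDimensional ℝ E]
  {X : Type*} [TopologicalSpace X] [ChartedSpace E X] [T2Space X] [RSm E X]

lemma exists_lip_bound {V : Type*} [NormedAddCommGroup V] [NormedSpace ℝ V] {c : E → V} {K : Set E}
    (hK : IsCompact K) (hc : ∀ y ∈ K, ContDiffAt ℝ 1 c y) :
    ∃ A, 0 ≤ A ∧ (∀ y ∈ K, ‖c y‖ ≤ A) ∧ ∀ y ∈ K, ∀ y' ∈ K, ‖c y - c y'‖ ≤ A * ‖y - y'‖ := by
  have h1 : LocallyLipschitzOn K c := by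
    intro y hy
    obtain ⟨C, t, ht, h⟩ := (hc y hy).exists_lipschitzOnWith
    exact ⟨C, t, mem_nhdsWithin_of_mem_nhds ht, h⟩
  obtain ⟨C, hC⟩ := h1.exists_lipschitzOnWith_of_compact hK
  obtain ⟨A, hA⟩ := hK.exists_bound_of_continuousOn (f := c)
    fun y hy => (hc y hy).continuousAt.continuousWithinAt
  refine ⟨|A| + C, by positivity, fun y hy => ?_, fun y hy y' hy' => ?_⟩
  · linarith [hA y hy, le_abs_self A, C.coe_nonneg]
  · have := hC.dist_le_mul y hy y' hy'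
    rw [dist_eq_norm, dist_eq_norm] at this
    exact this.trans (mul_le_mul_of_nonneg_right (by linarith [abs_nonneg A]) (norm_nonneg _))

/-- applying a `C¹` family of linear maps preserves Hoelder bounds on a compact set -/
lemma exists_hol_apply {V W : Type*} [NormedAddCommGroup V] [NormedSpace ℝ V]
    [NormedAddCommGroup W] [NormedSpace ℝ W] {α : ℝ} (h0 : 0 < α) (h1 : α ≤ 1)
    {c : E → V →L[ℝ] W} {K : Set E} (hK : IsCompact K) (hc : ∀ y ∈ K, ContDiffAt ℝ 1 c y) :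
    ∃ A, 0 ≤ A ∧ ∀ (f : E → V) (N : ℝ), 0 ≤ N → (∀ y ∈ K, ‖f y‖ ≤ N) →
      (∀ y ∈ K, ∀ y' ∈ K, ‖f y - f y'‖ ≤ N * ‖y - y'‖ ^ α) →
      (∀ y ∈ K, ‖c y (f y)‖ ≤ A * N) ∧
        ∀ y ∈ K, ∀ y' ∈ K, ‖c y (f y) - c y' (f y')‖ ≤ A * N * ‖y - y'‖ ^ α := by
  obtain ⟨A, hA0, hA, hL⟩ := exists_lip_bound hK hc
  refine ⟨4 * A, by positivity, fun f N hN hf hf' => ⟨fun y hy => ?_, fun y hy y' hy' => ?_⟩⟩
  · refine ((c y).le_opNorm _).trans ((mul_le_mul (hA y hy) (hf y hy) (norm_nonneg _) hA0).trans ?_)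
    nlinarith [mul_nonneg hA0 hN]
  · have e : c y (f y) - c y' (f y') = c y (f y - f y') + (c y - c y') (f y') := by
      simp
    have h2 : ‖c y - c y'‖ ≤ (A + (A + A)) * ‖y - y'‖ ^ α :=
      hol_of_lip h0 h1 hA0 (by positivity) (norm_nonneg _) (hL y hy y' hy')
        ((norm_sub_le _ _).trans (add_le_add (hA y hy) (hA y' hy')))
    have h3 : 0 ≤ ‖y - y'‖ ^ α := Real.rpow_nonneg (norm_nonneg _) _
    have h4 : ‖c y (f y - f y')‖ ≤ A * (N * ‖y - y'‖ ^ α) :=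
      ((c y).le_opNorm _).trans (mul_le_mul (hA y hy) (hf' y hy y' hy') (norm_nonneg _) hA0)
    have h5 : ‖(c y - c y') (f y')‖ ≤ (A + (A + A)) * ‖y - y'‖ ^ α * N :=
      ((c y - c y').le_opNorm _).trans (mul_le_mul h2 (hf y' hy') (norm_nonneg _) (by positivity))
    rw [e]
    refine (norm_add_le _ _).trans ((add_le_add h4 h5).trans (le_of_eq (by ring)))

variable (𝒞 : Cov E X) {α : ℝ}

lemma sum_sq_pos (x : X) : 0 < ∑ i, 𝒞.η i x * 𝒞.η i x := by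
  obtain ⟨i, hx, hxb⟩ := 𝒞.cover x
  refine Finset.sum_pos' (fun j _ => mul_self_nonneg _) ⟨i, Finset.mem_univ _, ?_⟩
  rw [𝒞.η_eq_one hx (ball_subset_closedBall (𝒞.ball_sub hxb))]
  norm_num

/-- the coefficients which recover the jet in a chart from the cut off jets -/
noncomputable def rec (e : OpenPartialHomeomorph X E) (i : Fin 𝒞.N) (y : E) : Jet E →L[ℝ] Jet E :=
  (𝒞.η i (e.symm y) / ∑ j, 𝒞.η j (e.symm y) * 𝒞.η j (e.symm y)) • TJ (𝒞.e i) e y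

lemma contDiffAt_rec {e : OpenPartialHomeomorph X E} (he : e ∈ atlas E X) (i : Fin 𝒞.N) {y : E}
    (hy : y ∈ e.target) : ContDiffAt ℝ ∞ (rec 𝒞 e i) y := by
  by_cases hs : e.symm y ∈ (𝒞.e i).source
  · have h1 : ∀ j, ContDiffAt ℝ ∞ (fun y => 𝒞.η j (e.symm y)) y := fun j =>
      (𝒞.η_ck j).at_target he hy
    have h2 := contDiffAt_TJ (𝒞.mem i) he hs (e.map_target hy)
    rw [e.right_inv hy] at h2
    exact ((h1 i).div (ContDiffAt.sum fun j _ => (h1 j).mul (h1 j)) (sum_sq_pos 𝒞 _).ne').smul h2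
  · have h1 : ∀ᶠ z in 𝓝 (e.symm y), 𝒞.η i z = 0 :=
      ext0_eventually_zero (K := closedBall (𝒞.c i) (3 * 𝒞.r i)) (isCompact_closedBall _ _)
        (𝒞.sub i) (fun y hy => by
          apply (𝒞.bump i).zero_of_le_dist
          simp only [mem_closedBall, not_le] at hy
          exact hy.le) hs
    have h2 : ContinuousAt e.symm y := e.symm.continuousAt hy
    have h3 : rec 𝒞 e i =ᶠ[𝓝 y] fun _ => 0 := by
      filter_upwards [h2.eventually h1] with z hz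
      rw [rec, hz, zero_div]
      exact zero_smul ℝ (TJ (𝒞.e i) e z)
    exact contDiffAt_const.congr_of_eventuallyEq h3

lemma jet_eq_sum {e : OpenPartialHomeomorph X E} (he : e ∈ atlas E X) {v : X → ℝ}
    (hv : CkFn E 2 v) {y : E} (hy : y ∈ e.target) :
    jet (fun z => v (e.symm z)) y = ∑ i, rec 𝒞 e i y (𝒞.Jf i v (e.symm y)) := by
  have h1 : ∀ i, rec 𝒞 e i y (𝒞.Jf i v (e.symm y)) =
      (𝒞.η i (e.symm y) * 𝒞.η i (e.symm y) / ∑ j, 𝒞.η j (e.symm y) * 𝒞.η j (e.symm y)) •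
        jet (fun z => v (e.symm z)) y := by
    intro i
    by_cases h : 𝒞.η i (e.symm y) = 0
    · rw [rec, h]; simp
    · have h2 := jet_change hv (𝒞.mem i) he (𝒞.η_ne_zero h).1 (e.map_target hy)
      rw [e.right_inv hy] at h2
      rw [rec, Cov.Jf, smul_apply, map_smul, ← h2, smul_smul]
      congr 1
      ring
  simp only [h1]
  rw [← Finset.sum_smul, ← Finset.sum_div, div_self (sum_sq_pos 𝒞 _).ne', one_smul]

/-- **Hoelder bounds for the jet in any chart.** -/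
theorem exists_jet_bound (h0 : 0 < α) (h1 : α ≤ 1) {e : OpenPartialHomeomorph X E}
    (he : e ∈ atlas E X) {K : Set E} (hK : IsCompact K) (hKt : K ⊆ e.target) :
    ∃ C, 0 ≤ C ∧ ∀ v : 𝒞.C2 α, (∀ y ∈ K, ‖jet (fun z => 𝒞.fn v (e.symm z)) y‖ ≤ C * ‖v‖) ∧
      ∀ y ∈ K, ∀ y' ∈ K, ‖jet (fun z => 𝒞.fn v (e.symm z)) y - jet (fun z => 𝒞.fn v (e.symm z)) y'‖
        ≤ C * ‖v‖ * ‖y - y'‖ ^ α := by
  obtain ⟨D, hD0, hD⟩ := 𝒞.symm_lip he hK hKt
  choose A hA0 hA using fun i => exists_hol_apply h0 h1 (c := rec 𝒞 e i) hK fun y hy =>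
    (contDiffAt_rec 𝒞 he i (hKt hy)).of_le (by simp)
  set B : Fin 𝒞.N → ℝ := fun i => ‖𝒞.J α i‖ * (1 + D ^ α) with hB
  have hDα : 0 ≤ D ^ α := Real.rpow_nonneg hD0 _
  refine ⟨∑ i, A i * B i, Finset.sum_nonneg fun i _ => by have := hA0 i; positivity, fun v => ?_⟩
  have h2 := fun i => hA i (fun y => 𝒞.Jf i (𝒞.fn v) (e.symm y)) (B i * ‖v‖) (by positivity)
    (fun y hy => by
      rw [← 𝒞.J_apply]
      refine (Hol.norm_apply_le _ _).trans (((𝒞.J α i).le_opNorm v).trans ?_)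
      simp only [hB]
      nlinarith [mul_nonneg (mul_nonneg (norm_nonneg (𝒞.J α i)) hDα) (norm_nonneg v)])
    (fun y hy y' hy' => by
      rw [← 𝒞.J_apply, ← 𝒞.J_apply]
      refine (Hol.norm_sub_le' _ _ _).trans ?_
      rw [𝒞.coe_w]
      have h3 : 𝒞.d (e.symm y) (e.symm y') ^ α ≤ D ^ α * ‖y - y'‖ ^ α := by
        rw [← Real.mul_rpow hD0 (norm_nonneg _)]
        exact Real.rpow_le_rpow (𝒞.d_nonneg _ _) (hD y hy y' hy') h0.le
      have h4 : 0 ≤ ‖y - y'‖ ^ α := Real.rpow_nonneg (norm_nonneg _) _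
      refine (mul_le_mul ((𝒞.J α i).le_opNorm v) h3 (Real.rpow_nonneg (𝒞.d_nonneg _ _) _)
        (by positivity)).trans ?_
      simp only [hB]
      nlinarith [mul_nonneg (mul_nonneg (norm_nonneg (𝒞.J α i)) h4) (norm_nonneg v)])
  refine ⟨fun y hy => ?_, fun y hy y' hy' => ?_⟩
  · rw [jet_eq_sum 𝒞 he (𝒞.fn_ck v) (hKt hy), Finset.sum_mul]
    refine (norm_sum_le _ _).trans (Finset.sum_le_sum fun i _ => ?_)
    rw [mul_assoc]
    exact (h2 i).1 y hy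
  · rw [jet_eq_sum 𝒞 he (𝒞.fn_ck v) (hKt hy), jet_eq_sum 𝒞 he (𝒞.fn_ck v) (hKt hy'),
      ← Finset.sum_sub_distrib, Finset.sum_mul, Finset.sum_mul]
    refine (norm_sum_le _ _).trans (Finset.sum_le_sum fun i _ => ?_)
    rw [mul_assoc (A i)]
    exact (h2 i).2 y hy y' hy'

end jet

/-- the projection onto an interval -/
noncomputable def cl (a b w : ℝ) : ℝ := max a (min b w)

lemma continuous_cl (a b : ℝ) : Continuous (cl a b) := by unfold cl; fun_prop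

lemma cl_mem {a b : ℝ} (h : a ≤ b) (w : ℝ) : cl a b w ∈ Icc a b :=
  ⟨le_max_left _ _, max_le h (min_le_left _ _)⟩

lemma cl_of_mem {a b w : ℝ} (h : w ∈ Icc a b) : cl a b w = w := by
  rw [cl, min_eq_right h.2, max_eq_right h.1]

variable {M : Type*} [TopologicalSpace M] [ChartedSpace E2 M] [T2Space M] [RSm E2 M]
  (𝒞 : Cov E2 M) {α : ℝ}

/-- the general collar map -/
theorem exists_collar_gen (h0 : 0 < α) (h1 : α ≤ 1) {e : OpenPartialHomeomorph M E2}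
    (he : e ∈ atlas E2 M) {a b : ℝ} (hab : a ≤ b)
    (ht : ∀ p : ℝ × ℝ, p.1 ∈ Icc a b → pol p ∈ e.target)
    {A A' : E2 → Jet E2 →L[ℝ] ℝ} (hA : ContDiff ℝ 1 A) (hA' : ContDiff ℝ 1 A')
    (hder : ∀ (g : E2 → ℝ) (w θ : ℝ), ContDiffAt ℝ 2 g (pol (w, θ)) →
      HasDerivAt (fun t => A (pol (w, t)) (jet g (pol (w, t))))
        (A' (pol (w, θ)) (jet g (pol (w, θ)))) θ) :
    ∃ L : 𝒞.C2 α →L[ℝ] WA, ∀ v w θ, (L v).ev w θ =
      (A (pol (cl a b w, θ)) (jet (fun z => 𝒞.fn v (e.symm z)) (pol (cl a b w, θ))) : ℝ) := by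
  have hK := isCompact_image_pol a b
  have hKt : pol '' (Icc a b ×ˢ univ) ⊆ e.target := by
    rintro _ ⟨p, hp, rfl⟩
    exact ht p hp.1
  have hm : ∀ w θ, pol (cl a b w, θ) ∈ pol '' (Icc a b ×ˢ univ) := fun w θ =>
    ⟨_, ⟨cl_mem hab w, mem_univ _⟩, rfl⟩
  obtain ⟨C, hC0, hC⟩ := exists_jet_bound 𝒞 h0 h1 he hK hKt
  obtain ⟨B, hB0, hB⟩ := exists_hol_apply h0 h1 hK fun y _ => hA.contDiffAt
  obtain ⟨B', hB0', hB'⟩ := exists_hol_apply h0 h1 hK fun y _ => hA'.contDiffAt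
  have hcd : ∀ (v : 𝒞.C2 α) w θ, ContDiffAt ℝ 2 (fun z => 𝒞.fn v (e.symm z)) (pol (cl a b w, θ)) :=
    fun v w θ => (𝒞.fn_ck v).at_target he (hKt (hm w θ))
  have hcont : ∀ (v : 𝒞.C2 α) {T : E2 → Jet E2 →L[ℝ] ℝ}, ContDiff ℝ 1 T → Continuous
      fun p : ℝ × ℝ => T (pol (cl a b p.1, p.2))
        (jet (fun z => 𝒞.fn v (e.symm z)) (pol (cl a b p.1, p.2))) := by
    intro v T hT
    have h2 : Continuous fun p : ℝ × ℝ => pol (cl a b p.1, p.2) :=
      continuous_pol.comp (((continuous_cl a b).comp continuous_fst).prodMk continuous_snd)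
    refine (hT.continuous.comp h2).clm_apply (continuous_iff_continuousAt.2 fun p => ?_)
    exact ContinuousAt.comp (g := jet _) (contDiffAt_jet (k := 0)
      (by simpa using hcd v p.1 p.2)).continuousAt h2.continuousAt
  set D := Real.exp (-a) ^ α with hD
  have hD0 : 0 ≤ D := by positivity
  refine exists_clm_WA h0 (C := (B + B' * D) * C) (fun u v w θ => ?_) (fun c v w θ => ?_)
    fun v => ⟨Complex.continuous_ofReal.comp (hcont v hA), fun w θ => ?_, fun w θ => ?_,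
      fun w => ⟨fun θ => (A' (pol (cl a b w, θ))
        (jet (fun z => 𝒞.fn v (e.symm z)) (pol (cl a b w, θ))) : ℝ), fun θ => ?_, ?_,
        fun x y => ?_⟩⟩
  · simp only [Cov.fn_add]
    rw [Cov.jet_add (hcd u w θ) (hcd v w θ), map_add, Complex.ofReal_add]
  · simp only [Cov.fn_smul]
    rw [Cov.jet_smul, map_smul, smul_eq_mul, Complex.ofReal_mul, Complex.real_smul]
  · simp only [pol_periodic]
  · rw [Complex.norm_real]
    refine ((hB _ _ (by positivity) (hC v).1 (hC v).2).1 _ (hm w θ)).trans ?_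
    nlinarith [mul_nonneg (mul_nonneg (mul_nonneg hB0' hD0) hC0) (norm_nonneg v)]
  · exact (hder _ _ θ (hcd v w θ)).ofReal_comp
  · exact Complex.continuous_ofReal.comp ((hcont v hA').comp (continuous_const.prodMk continuous_id))
  · rw [← Complex.ofReal_sub, Complex.norm_real]
    refine ((hB' _ _ (by positivity) (hC v).1 (hC v).2).2 _ (hm w x) _ (hm w y)).trans ?_
    have h2 : ‖pol (cl a b w, x) - pol (cl a b w, y)‖ ^ α ≤ D * |x - y| ^ α := by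
      rw [hD, ← Real.mul_rpow (Real.exp_pos _).le (abs_nonneg _)]
      refine Real.rpow_le_rpow (norm_nonneg _) ((norm_pol_sub_le _ _ _).trans ?_) h0.le
      exact mul_le_mul_of_nonneg_right (Real.exp_le_exp.2 (neg_le_neg (cl_mem hab w).1))
        (abs_nonneg _)
    refine (mul_le_mul_of_nonneg_left h2 (by positivity)).trans ?_
    have h3 : 0 ≤ |x - y| ^ α := Real.rpow_nonneg (abs_nonneg _) _
    nlinarith [mul_nonneg (mul_nonneg (mul_nonneg hB0 hC0) (norm_nonneg v)) h3]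

/-- the first derivative in the direction `T y` -/
noncomputable def j1 (T : E2 →L[ℝ] E2) (y : E2) : Jet E2 →L[ℝ] ℝ :=
  (ContinuousLinearMap.apply ℝ ℝ (T y)).comp
    ((ContinuousLinearMap.fst ℝ _ _).comp (ContinuousLinearMap.snd ℝ ℝ _))

/-- the second derivative in the directions `T y`, `T' y` -/
noncomputable def j2 (T T' : E2 →L[ℝ] E2) (y : E2) : Jet E2 →L[ℝ] ℝ :=
  (ContinuousLinearMap.apply ℝ ℝ (T' y)).comp ((ContinuousLinearMap.apply ℝ (E2 →L[ℝ] ℝ) (T y)).comp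
    ((ContinuousLinearMap.snd ℝ _ _).comp (ContinuousLinearMap.snd ℝ ℝ _)))

lemma j1_apply (T : E2 →L[ℝ] E2) (y : E2) (j : Jet E2) : j1 T y j = j.2.1 (T y) := rfl
lemma j2_apply (T T' : E2 →L[ℝ] E2) (y : E2) (j : Jet E2) : j2 T T' y j = j.2.2 (T y) (T' y) := rfl

lemma contDiff_j1 (T : E2 →L[ℝ] E2) {n : WithTop ℕ∞} : ContDiff ℝ n (j1 T) :=
  ((ContinuousLinearMap.apply ℝ ℝ).contDiff.comp T.contDiff).clm_comp contDiff_const

lemma contDiff_j2 (T T' : E2 →L[ℝ] E2) {n : WithTop ℕ∞} : ContDiff ℝ n (j2 T T') :=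
  ((ContinuousLinearMap.apply ℝ ℝ).contDiff.comp T'.contDiff).clm_comp
    (((ContinuousLinearMap.apply ℝ (E2 →L[ℝ] ℝ)).contDiff.comp T.contDiff).clm_comp contDiff_const)

lemma hasDerivAt_j1 (T : E2 →L[ℝ] E2) (g : E2 → ℝ) (w θ : ℝ) (hg : ContDiffAt ℝ 2 g (pol (w, θ))) :
    HasDerivAt (fun t => j1 T (pol (w, t)) (jet g (pol (w, t))))
      ((j1 (T.comp Jr) (pol (w, θ)) + j2 Jr T (pol (w, θ))) (jet g (pol (w, θ)))) θ := by
  have h := HasFDerivAt.comp_hasDerivAt (f := fun t => pol (w, t)) θ (hasFDerivAt_lin hg T)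
    (hasDerivAt_pol_th w θ)
  exact h

/-- **CO7.** The function and its polar derivatives on the collar `a ≤ w ≤ b`, as elements of the
Wiener algebra. -/
theorem exists_collar (h0 : 0 < α) (h1 : α ≤ 1) {e : OpenPartialHomeomorph M E2}
    (he : e ∈ atlas E2 M) {a b : ℝ} (hab : a ≤ b)
    (ht : ∀ p : ℝ × ℝ, p.1 ∈ Icc a b → pol p ∈ e.target) :
    ∃ L0 Lw Lth : 𝒞.C2 α →L[ℝ] WA, ∀ v w θ,
      (L0 v).ev w θ = 𝒞.fn v (e.symm (pol (cl a b w, θ))) ∧
      (Lw v).ev w θ = (dw (fun p => 𝒞.fn v (e.symm (pol p))) (cl a b w, θ) : ℝ) ∧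
      (Lth v).ev w θ = (dth (fun p => 𝒞.fn v (e.symm (pol p))) (cl a b w, θ) : ℝ) := by
  obtain ⟨L0, hL0⟩ := exists_collar_gen 𝒞 h0 h1 he hab ht
    (A := fun _ => ContinuousLinearMap.fst ℝ _ _) (A' := j1 Jr) contDiff_const (contDiff_j1 _)
    fun g w θ hg => by
      have h := HasFDerivAt.comp_hasDerivAt (f := fun t => pol (w, t)) θ
        (hg.differentiableAt (by norm_num)).hasFDerivAt (hasDerivAt_pol_th w θ)
      exact h
  obtain ⟨Lw, hLw⟩ := exists_collar_gen 𝒞 h0 h1 he hab ht (contDiff_j1 _)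
    ((contDiff_j1 _).add (contDiff_j2 _ _)) (hasDerivAt_j1 (-ContinuousLinearMap.id ℝ E2))
  obtain ⟨Lth, hLth⟩ := exists_collar_gen 𝒞 h0 h1 he hab ht (contDiff_j1 _)
    ((contDiff_j1 _).add (contDiff_j2 _ _)) (hasDerivAt_j1 Jr)
  refine ⟨L0, Lw, Lth, fun v w θ => ⟨hL0 v w θ, ?_, ?_⟩⟩
  all_goals
    have hd : DifferentiableAt ℝ (fun z => 𝒞.fn v (e.symm z)) (pol (cl a b w, θ)) :=
      ((𝒞.fn_ck v).at_target he (ht _ (cl_mem hab w))).differentiableAt (by norm_num)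
  · rw [hLw, dw_comp_pol hd, j1_apply]
    simp [jet]
  · rw [hLth, dth_comp_pol hd, j1_apply]
    rfl

/-- The version with a cutoff function `κ` which vanishes outside `[a, b]`. -/
theorem exists_collar_cut (h0 : 0 < α) (h1 : α ≤ 1) {e : OpenPartialHomeomorph M E2}
    (he : e ∈ atlas E2 M) {a b : ℝ} (hab : a ≤ b)
    (ht : ∀ p : ℝ × ℝ, p.1 ∈ Icc a b → pol p ∈ e.target) (κ : CB)
    (hκ : ∀ w, w ∉ Icc a b → κ w = 0) :
    ∃ L0 Lw Lth : 𝒞.C2 α →L[ℝ] WA, ∀ v w θ,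
      (L0 v).ev w θ = κ w * 𝒞.fn v (e.symm (pol (w, θ))) ∧
      (Lw v).ev w θ = κ w * (dw (fun p => 𝒞.fn v (e.symm (pol p))) (w, θ) : ℝ) ∧
      (Lth v).ev w θ = κ w * (dth (fun p => 𝒞.fn v (e.symm (pol p))) (w, θ) : ℝ) := by
  obtain ⟨L0, Lw, Lth, h⟩ := exists_collar 𝒞 h0 h1 he hab ht
  let m : WA →L[ℝ] WA := (ContinuousLinearMap.mul ℂ WA (WA.sc κ)).restrictScalars ℝ
  have hm : ∀ x w θ, (m x).ev w θ = κ w * x.ev w θ := fun x w θ => by
    change (WA.sc κ * x).ev w θ = _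
    rw [WA.ev_mul, WA.ev_sc]
  refine ⟨m.comp L0, m.comp Lw, m.comp Lth, fun v w θ => ?_⟩
  simp only [ContinuousLinearMap.comp_apply, hm, (h v w θ).1, (h v w θ).2.1, (h v w θ).2.2]
  by_cases hw : w ∈ Icc a b
  · rw [cl_of_mem hw]
    exact ⟨rfl, rfl, rfl⟩
  · simp [hκ w hw]

end Vale.Agent.P218MP
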