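import Mathlib

/-!
# P218 (helper40): decay of Fourier coefficients of Hoelder functions
-/

open Filter Topology Set Complex MeasureTheory
open scoped Real

namespace Vale.Agent.P218MP

/-- the Fourier coefficient of a function of period `2π` -/
noncomputable def fc (f : ℝ → ℂ) (k : ℤ) : ℂ :=
  (1 / (2 * π) : ℂ) * ∫ θ in (0 : ℝ)..2 * π, cexp (-(k * θ * I)) * f θ

theorem norm_ek (k : ℤ) (θ : ℝ) : ‖cexp (-(k * θ * I))‖ = 1 := by
  have h : -((k : ℂ) * θ * I) = ((-(k * θ) : ℝ) : ℂ) * I := by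
    push_cast
    ring
  rw [h, norm_exp_ofReal_mul_I]

theorem norm_pref : ‖(1 / (2 * π) : ℂ)‖ = 1 / (2 * π) := by
  have h : (1 / (2 * π) : ℂ) = ((1 / (2 * π) : ℝ) : ℂ) := by push_cast; rfl
  rw [h, norm_real, Real.norm_eq_abs, abs_of_pos (by positivity)]

theorem norm_fc_le {f : ℝ → ℂ} {A : ℝ} (h : ∀ θ, ‖f θ‖ ≤ A) (k : ℤ) : ‖fc f k‖ ≤ A := by
  unfold fc
  have h1 : ‖∫ θ in (0 : ℝ)..2 * π, cexp (-(k * θ * I)) * f θ‖ ≤ A * |2 * π - 0| :=
    intervalIntegral.norm_integral_le_of_norm_le_const fun θ _ => by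
      rw [norm_mul, norm_ek, one_mul]
      exact h θ
  rw [sub_zero, abs_of_pos (by positivity)] at h1
  rw [norm_mul, norm_pref]
  calc 1 / (2 * π) * ‖∫ θ in (0 : ℝ)..2 * π, cexp (-(k * θ * I)) * f θ‖
      ≤ 1 / (2 * π) * (A * (2 * π)) := by gcongr
    _ = A := by field_simp

theorem cont_ek (k : ℤ) : Continuous fun θ : ℝ => cexp (-(k * θ * I)) := by fun_prop

theorem fc_add {f g : ℝ → ℂ} (hf : Continuous f) (hg : Continuous g) (k : ℤ) :
    fc (fun θ => f θ + g θ) k = fc f k + fc g k := by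
  unfold fc
  rw [← mul_add, ← intervalIntegral.integral_add (((cont_ek k).fun_mul hf).intervalIntegrable _ _)
    (((cont_ek k).fun_mul hg).intervalIntegrable _ _)]
  simp only [mul_add]

theorem fc_sub {f g : ℝ → ℂ} (hf : Continuous f) (hg : Continuous g) (k : ℤ) :
    fc (fun θ => f θ - g θ) k = fc f k - fc g k := by
  unfold fc
  rw [← mul_sub, ← intervalIntegral.integral_sub (((cont_ek k).fun_mul hf).intervalIntegrable _ _)
    (((cont_ek k).fun_mul hg).intervalIntegrable _ _)]
  simp only [mul_sub]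

theorem fc_const_mul (c : ℂ) (f : ℝ → ℂ) (k : ℤ) : fc (fun θ => c * f θ) k = c * fc f k := by
  unfold fc
  rw [mul_left_comm c, ← intervalIntegral.integral_const_mul c]
  simp only [mul_left_comm c]

theorem ek_periodic (k : ℤ) : Function.Periodic (fun θ : ℝ => cexp (-(k * θ * I))) (2 * π) := by
  intro θ
  have h : -((k : ℂ) * ((θ + 2 * π : ℝ) : ℂ) * I) = -(k * θ * I) + ((-k : ℤ) : ℂ) * (2 * π * I) := by
    push_cast
    ring
  simp only
  rw [h, Complex.exp_add, exp_int_mul_two_pi_mul_I, mul_one]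

theorem fc_shift {f : ℝ → ℂ} (hp : Function.Periodic f (2 * π)) (k : ℤ) (h : ℝ) :
    fc (fun θ => f (θ + h)) k = cexp (k * h * I) * fc f k := by
  unfold fc
  have h1 : ∀ θ : ℝ, cexp (-(k * θ * I)) * f (θ + h) =
      cexp (k * h * I) * (cexp (-(k * ((θ + h : ℝ) : ℂ) * I)) * f (θ + h)) := by
    intro θ
    rw [← mul_assoc, ← Complex.exp_add]
    congr 2
    push_cast
    ring
  simp only [h1]
  rw [intervalIntegral.integral_const_mul, intervalIntegral.integral_comp_add_right
    (fun θ : ℝ => cexp (-(k * θ * I)) * f θ) h]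
  have h2 := ((ek_periodic k).mul hp).intervalIntegral_add_eq (0 + h) 0
  have h3 : (0 : ℝ) + h + 2 * π = 2 * π + h := by ring
  rw [h3, zero_add (2 * π)] at h2
  simp only [Pi.mul_apply] at h2
  rw [h2]
  ring

/-- Decay of the coefficients of a Hoelder function. -/
theorem norm_fc_le_holder {f : ℝ → ℂ} (hf : Continuous f) (hp : Function.Periodic f (2 * π))
    {α B : ℝ} (h : ∀ x y, ‖f x - f y‖ ≤ B * |x - y| ^ α) {k : ℤ} (hk : k ≠ 0) :
    ‖fc f k‖ ≤ B / 2 * (π / |(k : ℝ)|) ^ α := by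
  have hk' : (k : ℂ) ≠ 0 := by exact_mod_cast hk
  have h1 := fc_shift hp k (π / k)
  have h2 : (k : ℂ) * ((π / k : ℝ) : ℂ) * I = π * I := by
    push_cast
    field_simp
  rw [h2, exp_pi_mul_I] at h1
  have h3 : fc (fun θ => f θ - f (θ + π / k)) k = 2 * fc f k := by
    rw [fc_sub (g := fun θ => f (θ + π / k)) hf (by fun_prop), h1]
    ring
  have h4 := norm_fc_le (f := fun θ => f θ - f (θ + π / k)) (A := B * (π / |(k : ℝ)|) ^ α)
    (fun θ => by
      have h5 := h θ (θ + π / k)
      rwa [sub_add_cancel_left, abs_neg, abs_div, abs_of_pos Real.pi_pos] at h5) k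
  rw [h3, norm_mul, Complex.norm_two] at h4
  linarith

theorem fc_deriv {f f' : ℝ → ℂ} (hf : ∀ θ, HasDerivAt f (f' θ) θ) (hf' : Continuous f')
    (hp : Function.Periodic f (2 * π)) (k : ℤ) : fc f' k = k * I * fc f k := by
  have hfc : Continuous f := continuous_iff_continuousAt.2 fun θ => (hf θ).continuousAt
  have h1 : ∀ θ : ℝ, HasDerivAt (fun θ : ℝ => cexp (-(k * θ * I)) * f θ)
      (cexp (-(k * θ * I)) * f' θ - k * I * (cexp (-(k * θ * I)) * f θ)) θ := by
    intro θ
    have h2 : HasDerivAt (fun θ : ℝ => -((k : ℂ) * θ * I)) (-(k * 1 * I)) θ :=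
      (((Complex.ofRealCLM.hasDerivAt (x := θ)).const_mul (k : ℂ)).mul_const I).neg
    refine ((h2.cexp).fun_mul (hf θ)).congr_deriv ?_
    ring
  have h2 := intervalIntegral.integral_eq_sub_of_hasDerivAt (a := 0) (b := 2 * π)
    (fun θ _ => h1 θ) ((((cont_ek k).mul hf').sub
      (continuous_const.mul ((cont_ek k).mul hfc))).intervalIntegrable _ _)
  have h3 := ((ek_periodic k).mul hp) 0
  simp only [Pi.mul_apply, zero_add] at h3
  rw [h3, sub_self, intervalIntegral.integral_sub (((cont_ek k).fun_mul hf').intervalIntegrable _ _)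
    ((continuous_const.fun_mul ((cont_ek k).fun_mul hfc)).intervalIntegrable _ _),
    intervalIntegral.integral_const_mul, sub_eq_zero] at h2
  unfold fc
  rw [h2]
  ring

/-- the summable weights -/
noncomputable def wt (α : ℝ) (k : ℤ) : ℝ := if k = 0 then 1 else π ^ α / 2 * |(k : ℝ)| ^ (-(1 + α))

theorem wt_nonneg (α : ℝ) (k : ℤ) : 0 ≤ wt α k := by
  unfold wt
  split_ifs <;> positivity

theorem summable_wt {α : ℝ} (hα : 0 < α) : Summable (wt α) := by
  have h1 := (Real.summable_abs_int_rpow (b := 1 + α) (by linarith)).mul_left (π ^ α / 2)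
  refine (summable_congr_cofinite ?_).1 h1
  refine eventually_cofinite.2 ((finite_singleton (0 : ℤ)).subset fun k hk => ?_)
  by_contra h
  exact hk (by simp only [wt, if_neg (show k ≠ 0 from h)])

/-- Decay of the coefficients of a function with a Hoelder derivative. -/
theorem norm_fc_le_wt {f f' : ℝ → ℂ} (hf : ∀ θ, HasDerivAt f (f' θ) θ) (hf' : Continuous f')
    (hp : Function.Periodic f (2 * π)) {α N : ℝ} (h0 : ∀ θ, ‖f θ‖ ≤ N)
    (h : ∀ x y, ‖f' x - f' y‖ ≤ N * |x - y| ^ α) (k : ℤ) : ‖fc f k‖ ≤ N * wt α k := by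
  unfold wt
  split_ifs with hk
  · rw [mul_one]
    exact norm_fc_le h0 k
  have hp' : Function.Periodic f' (2 * π) := fun θ => by
    have h1 : HasDerivAt (fun x => f (x + 2 * π)) (f' (θ + 2 * π)) θ :=
      (hf (θ + 2 * π)).comp_add_const θ (2 * π)
    have h2 : (fun x => f (x + 2 * π)) = f := funext hp
    rw [h2] at h1
    exact h1.unique (hf θ)
  have h1 := norm_fc_le_holder hf' hp' h hk
  have hk0 : 0 < |(k : ℝ)| := abs_pos.2 (by exact_mod_cast hk)
  rw [fc_deriv hf hf' hp, norm_mul, norm_mul, norm_I, mul_one, Complex.norm_intCast,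
    Real.div_rpow Real.pi_pos.le hk0.le] at h1
  rw [Real.rpow_neg hk0.le, Real.rpow_add hk0, Real.rpow_one]
  have h2 : 0 < |(k : ℝ)| ^ α := Real.rpow_pos_of_pos hk0 α
  rw [← le_div_iff₀' hk0] at h1
  refine h1.trans (le_of_eq ?_)
  field_simp

/-- Fourier inversion. -/
theorem hasSum_fc {f : ℝ → ℂ} (hf : Continuous f) (hp : Function.Periodic f (2 * π))
    (hs : Summable (fc f)) (θ : ℝ) : HasSum (fun k : ℤ => fc f k * cexp (k * θ * I)) (f θ) := by
  have : Fact (0 < 2 * π) := ⟨by positivity⟩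
  let F : C(AddCircle (2 * π), ℂ) := ⟨hp.lift, continuous_coinduced_dom.2 hf⟩
  have h1 : ∀ k, fourierCoeff F k = fc f k := by
    intro k
    rw [fourierCoeff_eq_intervalIntegral F k 0, zero_add]
    unfold fc
    rw [real_smul]
    congr 1
    · push_cast
      rfl
    · refine intervalIntegral.integral_congr fun x _ => ?_
      rw [fourier_coe_apply, smul_eq_mul]
      congr 2
      push_cast
      have : (π : ℂ) ≠ 0 := by exact_mod_cast Real.pi_ne_zero
      field_simp
  have h2 := has_pointwise_sum_fourier_series_of_summable (f := F) (by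
    rw [funext h1]
    exact hs) (θ : AddCircle (2 * π))
  simp only [h1] at h2
  convert h2 using 2 with k
  · rw [fourier_coe_apply, smul_eq_mul]
    congr 2
    push_cast
    have : (π : ℂ) ≠ 0 := by exact_mod_cast Real.pi_ne_zero
    field_simp
  · rfl

/-- The coefficients of an absolutely convergent series. -/
theorem fc_tsum {c : ℤ → ℂ} (hc : Summable fun k => ‖c k‖) (k : ℤ) :
    fc (fun θ => ∑' j : ℤ, c j * cexp (j * θ * I)) k = c k := by
  have hn : ∀ (j : ℤ) (θ : ℝ), ‖cexp (-(k * θ * I)) * (c j * cexp (j * θ * I))‖ = ‖c j‖ := by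
    intro j θ
    have h1 := norm_ek (-j) θ
    push_cast at h1
    rw [neg_mul, neg_mul, neg_neg] at h1
    rw [norm_mul, norm_mul, norm_ek, h1, one_mul, mul_one]
  have h1 : HasSum (fun j : ℤ => ∫ θ in (0 : ℝ)..2 * π, cexp (-(k * θ * I)) *
      (c j * cexp (j * θ * I))) (∫ θ in (0 : ℝ)..2 * π, cexp (-(k * θ * I)) *
        ∑' j : ℤ, c j * cexp (j * θ * I)) := by
    refine intervalIntegral.hasSum_integral_of_dominated_convergence (fun j _ => ‖c j‖)
      (fun j => Continuous.aestronglyMeasurable (by fun_prop))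
      (fun j => ae_of_all _ fun θ _ => (hn j θ).le) (ae_of_all _ fun θ _ => hc)
      intervalIntegrable_const (ae_of_all _ fun θ _ => ?_)
    rw [← tsum_mul_left]
    exact (Summable.of_norm (by simpa only [hn] using hc)).hasSum
  have h2 : ∀ j : ℤ, ∫ θ in (0 : ℝ)..2 * π, cexp (-(k * θ * I)) * (c j * cexp (j * θ * I)) =
      if j = k then c k * (2 * π) else 0 := by
    intro j
    have h3 : ∀ θ : ℝ, cexp (-(k * θ * I)) * (c j * cexp (j * θ * I)) =
        c j * cexp (((j - k) * I) * θ) := by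
      intro θ
      rw [mul_left_comm, ← Complex.exp_add]
      congr 2
      ring
    simp only [h3]
    rw [intervalIntegral.integral_const_mul]
    split_ifs with hj
    · subst hj
      simp
    · have h4 : ((j : ℂ) - k) * I ≠ 0 :=
        mul_ne_zero (sub_ne_zero.2 (by exact_mod_cast hj)) I_ne_zero
      rw [integral_exp_mul_complex h4]
      have h5 : ((j : ℂ) - k) * I * ((2 * π : ℝ) : ℂ) = ((j - k : ℤ) : ℂ) * (2 * π * I) := by
        push_cast
        ring
      rw [h5, exp_int_mul_two_pi_mul_I]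
      simp
  simp only [h2] at h1
  unfold fc
  rw [h1.unique (hasSum_ite_eq k (c k * (2 * π)))]
  have : (π : ℂ) ≠ 0 := by exact_mod_cast Real.pi_ne_zero
  field_simp

end Vale.Agent.P218MP
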