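import Mathlib
import Vale.Agent.P272.K.MP.Global

/-!
# P218 (helper40): the weak maximum principle with a positive strict supersolution
-/

open Filter Topology Set

namespace Vale.Agent.P218MP

open Vale.Agent.P272.K

/-- Abstract form. The set `K` need not be compact: it is enough that the pair `(u, φ)` takes
every value with `ε φ ≤ u` on a compact subset. -/
theorem max_abstract {X : Type*} [TopologicalSpace X] {K Ω : Set X} {u φ : X → ℝ}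
    (hu : ContinuousOn u K) (hφ : ContinuousOn φ K) (hφ0 : ∀ x ∈ K, 0 < φ x)
    (hc : ∀ ε > 0, ∃ Q, IsCompact Q ∧ Q ⊆ K ∧
      ∀ x ∈ K, ε * φ x ≤ u x → ∃ y ∈ Q, u y = u x ∧ φ y = φ x)
    (hb : ∀ x ∈ K, x ∉ Ω → u x ≤ 0) (hΩ : ∀ x ∈ Ω, K ∈ 𝓝 x)
    (hop : ∀ x ∈ Ω, ∀ m > 0, u x = m * φ x → ¬ IsLocalMax (fun y => u y - m * φ y) x) :
    ∀ x ∈ K, u x ≤ 0 := by
  intro x hx
  by_contra h0
  have h1 : 0 < u x / φ x := div_pos (not_le.1 h0) (hφ0 x hx)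
  obtain ⟨Q, hQ, hQK, hQu⟩ := hc _ h1
  obtain ⟨y, hy, hy1, hy2⟩ := hQu x hx (by rw [div_mul_cancel₀ _ (hφ0 x hx).ne'])
  obtain ⟨z, hz, hmax⟩ := hQ.exists_isMaxOn ⟨y, hy⟩
    ((hu.div hφ fun x hx => (hφ0 x hx).ne').mono hQK)
  have hzK := hQK hz
  have h2 : u x / φ x ≤ u z / φ z := by
    have h3 : u y / φ y ≤ u z / φ z := hmax hy
    rwa [hy1, hy2] at h3
  have hm : 0 < u z / φ z := h1.trans_le h2
  have h3 : u z = u z / φ z * φ z := by rw [div_mul_cancel₀ _ (hφ0 z hzK).ne']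
  have hall : ∀ p ∈ K, u p - u z / φ z * φ p ≤ 0 := by
    intro p hp
    rw [sub_nonpos, ← div_le_iff₀ (hφ0 p hp)]
    by_cases h4 : u x / φ x * φ p ≤ u p
    · obtain ⟨q, hq, hq1, hq2⟩ := hQu p hp h4
      have h5 : u q / φ q ≤ u z / φ z := hmax hq
      rwa [hq1, hq2] at h5
    · exact ((div_le_iff₀ (hφ0 p hp)).2 (not_le.1 h4).le).trans h2
  have hzΩ : z ∈ Ω := by
    by_contra h4
    have h5 := hb z hzK h4
    have h6 := mul_pos hm (hφ0 z hzK)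
    linarith
  refine hop z hzΩ _ hm h3 ?_
  filter_upwards [hΩ z hzΩ] with p hp
  have h4 := hall p hp
  show u p - u z / φ z * φ p ≤ u z - u z / φ z * φ z
  linarith

variable {E : Type*} [NormedAddCommGroup E] [NormedSpace ℝ E] [FiniteDimensional ℝ E]

/-- the value of the operator `a D² + b D + c` on `u` at `x` -/
noncomputable def op (a : (E →L[ℝ] E →L[ℝ] ℝ) →L[ℝ] ℝ) (b : (E →L[ℝ] ℝ) →L[ℝ] ℝ) (c : ℝ)
    (u : E → ℝ) (x : E) : ℝ :=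
  a (fderiv ℝ (fderiv ℝ u) x) + b (fderiv ℝ u x) + c * u x

omit [FiniteDimensional ℝ E] in
theorem op_sub_mul (a : (E →L[ℝ] E →L[ℝ] ℝ) →L[ℝ] ℝ) (b : (E →L[ℝ] ℝ) →L[ℝ] ℝ) (c m : ℝ)
    {u φ : E → ℝ} {x : E} (hu : ContDiffAt ℝ 2 u x) (hφ : ContDiffAt ℝ 2 φ x) :
    op a b c (fun y => u y - m * φ y) x = op a b c u x - m * op a b c φ x := by
  have hu1 : ∀ᶠ z in 𝓝 x, DifferentiableAt ℝ u z := by
    filter_upwards [hu.eventually (by simp)] with z hz using hz.differentiableAt (by simp)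
  have hφ1 : ∀ᶠ z in 𝓝 x, DifferentiableAt ℝ φ z := by
    filter_upwards [hφ.eventually (by simp)] with z hz using hz.differentiableAt (by simp)
  have h1 : fderiv ℝ (fun y => u y - m * φ y) =ᶠ[𝓝 x]
      fun z => fderiv ℝ u z - m • fderiv ℝ φ z := by
    filter_upwards [hu1, hφ1] with z h1 h2
    exact (h1.hasFDerivAt.fun_sub (h2.hasFDerivAt.const_mul m)).fderiv
  have hu2 : DifferentiableAt ℝ (fderiv ℝ u) x :=
    (hu.fderiv_right (m := 1) (by norm_num)).differentiableAt (by simp)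
  have hφ2 : DifferentiableAt ℝ (fderiv ℝ φ) x :=
    (hφ.fderiv_right (m := 1) (by norm_num)).differentiableAt (by simp)
  have h2 : fderiv ℝ (fun z => fderiv ℝ u z - m • fderiv ℝ φ z) x =
      fderiv ℝ (fderiv ℝ u) x - m • fderiv ℝ (fderiv ℝ φ) x :=
    (hu2.hasFDerivAt.fun_sub (hφ2.hasFDerivAt.fun_const_smul m)).fderiv
  unfold op
  have h3 := a.map_sub (fderiv ℝ (fderiv ℝ u) x) (m • fderiv ℝ (fderiv ℝ φ) x)
  have h4 := a.map_smul m (fderiv ℝ (fderiv ℝ φ) x)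
  rw [h1.self_of_nhds, h1.fderiv_eq, h2, h3, h4, b.map_sub, b.map_smul]
  simp only [smul_eq_mul]
  ring

/-- The local step of the maximum principle. -/
theorem not_isLocalMax {a : (E →L[ℝ] E →L[ℝ] ℝ) →L[ℝ] ℝ} {b : (E →L[ℝ] ℝ) →L[ℝ] ℝ} {c m : ℝ}
    (ha : ∀ ξ : E →L[ℝ] ℝ, 0 ≤ a (ξ.smulRight ξ)) {u φ : E → ℝ} {x : E}
    (hu : ContDiffAt ℝ 2 u x) (hφ : ContDiffAt ℝ 2 φ x) (hLu : 0 ≤ op a b c u x)
    (hLφ : op a b c φ x < 0) (hm : 0 < m) (he : u x = m * φ x) :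
    ¬ IsLocalMax (fun y => u y - m * φ y) x := by
  intro h
  have h1 := MP.op_nonpos_of_max a ha b h (hu.sub (contDiffAt_const.mul hφ))
  have h2 := op_sub_mul a b c m hu hφ
  have h3 : op a b c (fun y => u y - m * φ y) x ≤ 0 := by
    unfold op
    simp only [he, sub_self, mul_zero, add_zero]
    exact h1
  nlinarith

/-- In some chart at `x`, the numbers `Lu` and `Lφ` are the values on `u` and `φ` of one
degenerate elliptic operator. -/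
def EllPair (E : Type*) [NormedAddCommGroup E] [NormedSpace ℝ E] {X : Type*} [TopologicalSpace X]
    (u φ : X → ℝ) (x : X) (Lu Lφ : ℝ) : Prop :=
  ∃ e : OpenPartialHomeomorph X E, x ∈ e.source ∧
    ContDiffAt ℝ 2 (fun y => u (e.symm y)) (e x) ∧ ContDiffAt ℝ 2 (fun y => φ (e.symm y)) (e x) ∧
    ∃ (a : (E →L[ℝ] E →L[ℝ] ℝ) →L[ℝ] ℝ) (b : (E →L[ℝ] ℝ) →L[ℝ] ℝ) (c : ℝ),
      (∀ ξ : E →L[ℝ] ℝ, 0 ≤ a (ξ.smulRight ξ)) ∧
      Lu = op a b c (fun y => u (e.symm y)) (e x) ∧ Lφ = op a b c (fun y => φ (e.symm y)) (e x)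

/-- The weak maximum principle on a space with charts. -/
theorem max_chart {X : Type*} [TopologicalSpace X] {K Ω : Set X} {u φ : X → ℝ}
    (hu : ContinuousOn u K) (hφ : ContinuousOn φ K) (hφ0 : ∀ x ∈ K, 0 < φ x)
    (hc : ∀ ε > 0, ∃ Q, IsCompact Q ∧ Q ⊆ K ∧
      ∀ x ∈ K, ε * φ x ≤ u x → ∃ y ∈ Q, u y = u x ∧ φ y = φ x)
    (hb : ∀ x ∈ K, x ∉ Ω → u x ≤ 0) (hΩ : ∀ x ∈ Ω, K ∈ 𝓝 x)
    (hop : ∀ x ∈ Ω, ∃ Lu Lφ, EllPair E u φ x Lu Lφ ∧ 0 ≤ Lu ∧ Lφ < 0) :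
    ∀ x ∈ K, u x ≤ 0 := by
  refine max_abstract hu hφ hφ0 hc hb hΩ fun x hx m hm he hmax => ?_
  obtain ⟨Lu, Lφ, ⟨e, hxe, h1, h2, a, b, c, ha, rfl, rfl⟩, h3, h4⟩ := hop x hx
  refine not_isLocalMax ha h1 h2 h3 h4 hm ?_ (MP.isLocalMax_chart hxe hmax)
  rw [e.left_inv hxe]
  exact he

/-- The weak maximum principle in a vector space. -/
theorem max_flat {K Ω : Set E} {u φ : E → ℝ}
    (hu : ContinuousOn u K) (hφ : ContinuousOn φ K) (hφ0 : ∀ x ∈ K, 0 < φ x)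
    (hc : ∀ ε > 0, ∃ Q, IsCompact Q ∧ Q ⊆ K ∧
      ∀ x ∈ K, ε * φ x ≤ u x → ∃ y ∈ Q, u y = u x ∧ φ y = φ x)
    (hb : ∀ x ∈ K, x ∉ Ω → u x ≤ 0) (hΩ : ∀ x ∈ Ω, K ∈ 𝓝 x)
    (hop : ∀ x ∈ Ω, ContDiffAt ℝ 2 u x ∧ ContDiffAt ℝ 2 φ x ∧
      ∃ (a : (E →L[ℝ] E →L[ℝ] ℝ) →L[ℝ] ℝ) (b : (E →L[ℝ] ℝ) →L[ℝ] ℝ) (c : ℝ),
        (∀ ξ : E →L[ℝ] ℝ, 0 ≤ a (ξ.smulRight ξ)) ∧ 0 ≤ op a b c u x ∧ op a b c φ x < 0) :
    ∀ x ∈ K, u x ≤ 0 := by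
  refine max_abstract hu hφ hφ0 hc hb hΩ fun x hx m hm he => ?_
  obtain ⟨h1, h2, a, b, c, ha, h3, h4⟩ := hop x hx
  exact not_isLocalMax ha h1 h2 h3 h4 hm he

/-- The maximum principle on the half cylinder `[s, ∞) × ℝ/Tℤ` for functions which grow more
slowly than a positive strict supersolution `φ(w)`. -/
theorem max_strip {s T : ℝ} (hT : 0 < T) {u : ℝ × ℝ → ℝ} {φ : ℝ → ℝ}
    (hu : ContinuousOn u (Ici s ×ˢ univ)) (hφ : ContinuousOn φ (Ici s))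
    (hφ0 : ∀ w, s ≤ w → 0 < φ w) (hper : ∀ w θ, u (w, θ + T) = u (w, θ))
    (hgr : ∀ ε > 0, ∃ R, ∀ w θ, R ≤ w → u (w, θ) < ε * φ w)
    (hb : ∀ θ, u (s, θ) ≤ 0)
    (hop : ∀ x : ℝ × ℝ, s < x.1 → ContDiffAt ℝ 2 u x ∧ ContDiffAt ℝ 2 φ x.1 ∧
      ∃ (a : ((ℝ × ℝ) →L[ℝ] (ℝ × ℝ) →L[ℝ] ℝ) →L[ℝ] ℝ) (b : ((ℝ × ℝ) →L[ℝ] ℝ) →L[ℝ] ℝ) (c : ℝ),
        (∀ ξ : (ℝ × ℝ) →L[ℝ] ℝ, 0 ≤ a (ξ.smulRight ξ)) ∧ 0 ≤ op a b c u x ∧
        op a b c (fun y => φ y.1) x < 0) :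
    ∀ w θ, s ≤ w → u (w, θ) ≤ 0 := by
  have h := max_flat (K := Ici s ×ˢ univ) (Ω := Ioi s ×ˢ univ) (φ := fun y => φ y.1) hu
    (hφ.comp continuous_fst.continuousOn fun x hx => hx.1) (fun x hx => hφ0 _ hx.1)
    (fun ε hε => by
      obtain ⟨R, hR⟩ := hgr ε hε
      refine ⟨Icc s R ×ˢ Icc 0 T, isCompact_Icc.prod isCompact_Icc,
        fun x hx => ⟨hx.1.1, trivial⟩, fun x hx h1 => ?_⟩
      have hp : Function.Periodic (fun θ => u (x.1, θ)) T := fun θ => hper x.1 θ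
      obtain ⟨θ, hθ, h2⟩ := hp.exists_mem_Ico₀ hT x.2
      refine ⟨(x.1, θ), ⟨⟨hx.1, ?_⟩, Ico_subset_Icc_self hθ⟩, h2.symm, rfl⟩
      by_contra h3
      exact absurd (hR x.1 x.2 (not_le.1 h3).le) (not_lt.2 h1))
    (fun x hx hx' => by
      have h1 : x.1 = s := le_antisymm (not_lt.1 fun h => hx' ⟨h, trivial⟩) hx.1
      have h2 := hb x.2
      rwa [← h1] at h2)
    (fun x hx => mem_of_superset ((isOpen_Ioi.prod isOpen_univ).mem_nhds hx)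
      fun y hy => ⟨mem_Ici.2 (le_of_lt hy.1), trivial⟩)
    (fun x hx => by
      obtain ⟨h1, h2, h3⟩ := hop x hx.1
      exact ⟨h1, h2.comp x contDiffAt_fst, h3⟩)
  exact fun w θ hw => h (w, θ) ⟨hw, trivial⟩

end Vale.Agent.P218MP
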